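import Mathlib

/-! Elementary two-point inequalities for `|·|^p`. -/

set_option autoImplicit false
open Real

namespace Crest.Agent.R232

lemma abs_rpow_eq_sq (x p : ℝ) : |x| ^ p = (x ^ 2) ^ (p / 2) := by
  rw [← sq_abs, ← Real.rpow_natCast, ← Real.rpow_mul (abs_nonneg x)]
  congr 1; push_cast; ring

lemma mid_rpow_le {p : ℝ} (hp : 1 ≤ p) {a b : ℝ} (ha : 0 ≤ a) (hb : 0 ≤ b) :
    ((a + b) / 2) ^ p ≤ (a ^ p + b ^ p) / 2 := by
  have := (convexOn_rpow hp).2 (Set.mem_Ici.2 ha) (Set.mem_Ici.2 hb)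
    (by norm_num : (0 : ℝ) ≤ 1 / 2) (by norm_num : (0 : ℝ) ≤ 1 / 2) (by norm_num)
  simp only [smul_eq_mul] at this
  calc ((a + b) / 2) ^ p = (1 / 2 * a + 1 / 2 * b) ^ p := by congr 1; ring
    _ ≤ _ := this
    _ = _ := by ring

lemma mid_rpow_lt {p : ℝ} (hp : 1 < p) {a b : ℝ} (ha : 0 ≤ a) (hb : 0 ≤ b) (hab : a ≠ b) :
    ((a + b) / 2) ^ p < (a ^ p + b ^ p) / 2 := by
  have := (strictConvexOn_rpow hp).2 (Set.mem_Ici.2 ha) (Set.mem_Ici.2 hb) hab
    (by norm_num : (0 : ℝ) < 1 / 2) (by norm_num : (0 : ℝ) < 1 / 2) (by norm_num)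
  simp only [smul_eq_mul] at this
  calc ((a + b) / 2) ^ p = (1 / 2 * a + 1 / 2 * b) ^ p := by congr 1; ring
    _ < _ := this
    _ = _ := by ring

lemma le_mid_rpow {p : ℝ} (hp0 : 0 ≤ p) (hp : p ≤ 1) {a b : ℝ} (ha : 0 ≤ a) (hb : 0 ≤ b) :
    (a ^ p + b ^ p) / 2 ≤ ((a + b) / 2) ^ p := by
  have := (Real.concaveOn_rpow hp0 hp).2 (Set.mem_Ici.2 ha) (Set.mem_Ici.2 hb)
    (by norm_num : (0 : ℝ) ≤ 1 / 2) (by norm_num : (0 : ℝ) ≤ 1 / 2) (by norm_num)
  simp only [smul_eq_mul] at this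
  calc (a ^ p + b ^ p) / 2 = 1 / 2 * a ^ p + 1 / 2 * b ^ p := by ring
    _ ≤ _ := this
    _ = _ := by congr 1; ring

/-- convexity -/
lemma two_pt_lower {p : ℝ} (hp : 1 ≤ p) (y A : ℝ) :
    |y| ^ p ≤ (|y + A| ^ p + |y - A| ^ p) / 2 := by
  refine le_trans (Real.rpow_le_rpow (abs_nonneg _) ?_ (by linarith))
    (mid_rpow_le hp (abs_nonneg _) (abs_nonneg _))
  have := abs_add_le (y + A) (y - A)
  have h : y + A + (y - A) = 2 * y := by ring
  rw [h, abs_mul, abs_two] at this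
  linarith

lemma two_pt_le_sq {p : ℝ} (hp0 : 0 ≤ p) (hp : p ≤ 2) (y A : ℝ) :
    (|y + A| ^ p + |y - A| ^ p) / 2 ≤ (y ^ 2 + A ^ 2) ^ (p / 2) := by
  rw [abs_rpow_eq_sq, abs_rpow_eq_sq]
  refine (le_mid_rpow (by linarith) (by linarith) (sq_nonneg _) (sq_nonneg _)).trans (le_of_eq ?_)
  congr 1; ring

lemma two_pt_ge_sq {p : ℝ} (hp : 2 ≤ p) (y A : ℝ) :
    (y ^ 2 + A ^ 2) ^ (p / 2) ≤ (|y + A| ^ p + |y - A| ^ p) / 2 := by
  rw [abs_rpow_eq_sq, abs_rpow_eq_sq]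
  refine le_trans (le_of_eq ?_) (mid_rpow_le (by linarith) (sq_nonneg _) (sq_nonneg _))
  congr 1; ring

/-- Clarkson, `p ≤ 2` -/
lemma two_pt_small {p : ℝ} (hp0 : 0 ≤ p) (hp : p ≤ 2) (y A : ℝ) :
    (|y + A| ^ p + |y - A| ^ p) / 2 ≤ |y| ^ p + |A| ^ p := by
  refine (two_pt_le_sq hp0 hp y A).trans ?_
  rw [abs_rpow_eq_sq, abs_rpow_eq_sq]
  exact Real.rpow_add_le_add_rpow (sq_nonneg _) (sq_nonneg _) (by linarith) (by linarith)

lemma two_pt_large {p : ℝ} (hp : 2 ≤ p) (y A : ℝ) :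
    |y| ^ p + |A| ^ p ≤ (|y + A| ^ p + |y - A| ^ p) / 2 := by
  refine le_trans ?_ (two_pt_ge_sq hp y A)
  rw [abs_rpow_eq_sq, abs_rpow_eq_sq]
  exact Real.add_rpow_le_rpow_add (sq_nonneg _) (sq_nonneg _) (by linarith)

lemma rpow_add_split {a b q : ℝ} (ha : 0 < a) (hb : 0 < b) :
    (a + b) ^ q = (a + b) ^ (q - 1) * a + (a + b) ^ (q - 1) * b := by
  rw [← mul_add, Real.rpow_sub_one (by positivity)]; field_simp

lemma rpow_eq_split {a q : ℝ} (ha : 0 < a) : a ^ q = a ^ (q - 1) * a := by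
  rw [Real.rpow_sub_one ha.ne']; field_simp

lemma two_pt_small_strict {p : ℝ} (hp0 : 0 ≤ p) (hp : p < 2) {y A : ℝ} (hy : y ≠ 0) (hA : A ≠ 0) :
    (|y + A| ^ p + |y - A| ^ p) / 2 < |y| ^ p + |A| ^ p := by
  refine (two_pt_le_sq hp0 hp.le y A).trans_lt ?_
  rw [abs_rpow_eq_sq, abs_rpow_eq_sq]
  have ha : 0 < y ^ 2 := by positivity
  have hb : 0 < A ^ 2 := by positivity
  rw [rpow_add_split ha hb, rpow_eq_split ha, rpow_eq_split hb]
  have h1 : (y ^ 2 + A ^ 2) ^ (p / 2 - 1) < (y ^ 2) ^ (p / 2 - 1) :=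
    Real.rpow_lt_rpow_of_neg ha (by linarith) (by linarith)
  have h2 : (y ^ 2 + A ^ 2) ^ (p / 2 - 1) < (A ^ 2) ^ (p / 2 - 1) :=
    Real.rpow_lt_rpow_of_neg hb (by linarith) (by linarith)
  have := mul_lt_mul_of_pos_right h1 ha
  have := mul_lt_mul_of_pos_right h2 hb
  linarith

lemma two_pt_large_strict {p : ℝ} (hp : 2 < p) {y A : ℝ} (hy : y ≠ 0) (hA : A ≠ 0) :
    |y| ^ p + |A| ^ p < (|y + A| ^ p + |y - A| ^ p) / 2 := by
  refine lt_of_lt_of_le ?_ (two_pt_ge_sq hp.le y A)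
  rw [abs_rpow_eq_sq, abs_rpow_eq_sq]
  have ha : 0 < y ^ 2 := by positivity
  have hb : 0 < A ^ 2 := by positivity
  rw [rpow_add_split ha hb, rpow_eq_split ha, rpow_eq_split hb]
  have h1 : (y ^ 2) ^ (p / 2 - 1) < (y ^ 2 + A ^ 2) ^ (p / 2 - 1) :=
    Real.rpow_lt_rpow ha.le (by linarith) (by linarith)
  have h2 : (A ^ 2) ^ (p / 2 - 1) < (y ^ 2 + A ^ 2) ^ (p / 2 - 1) :=
    Real.rpow_lt_rpow hb.le (by linarith) (by linarith)
  have := mul_lt_mul_of_pos_right h1 ha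
  have := mul_lt_mul_of_pos_right h2 hb
  linarith

lemma abs_add_rpow_le_crude {p : ℝ} (hp : 0 ≤ p) (y A : ℝ) :
    |y + A| ^ p ≤ 2 ^ p * (|y| ^ p + |A| ^ p) := by
  have h1 : |y + A| ≤ 2 * max |y| |A| := by
    have := abs_add_le y A
    have := le_max_left |y| |A|
    have := le_max_right |y| |A|
    linarith
  refine (Real.rpow_le_rpow (abs_nonneg _) h1 hp).trans ?_
  rw [Real.mul_rpow (by norm_num) (le_max_of_le_left (abs_nonneg _))]
  refine mul_le_mul_of_nonneg_left ?_ (by positivity)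
  have a : 0 ≤ |y| ^ p := by positivity
  have b : 0 ≤ |A| ^ p := by positivity
  rcases max_choice |y| |A| with h | h <;> rw [h] <;> linarith

lemma two_pt_crude {p : ℝ} (hp : 0 ≤ p) (y A : ℝ) :
    (|y + A| ^ p + |y - A| ^ p) / 2 ≤ 2 ^ p * (|y| ^ p + |A| ^ p) := by
  have h1 := abs_add_rpow_le_crude hp y A
  have h2 := abs_add_rpow_le_crude hp y (-A)
  rw [abs_neg, ← sub_eq_add_neg] at h2
  linarith

lemma exp_le_one_add_mul {z : ℝ} : exp z ≤ 1 + z * exp z := by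
  have h := Real.add_one_le_exp (-z)
  have h2 : exp (-z) * exp z = 1 := by rw [← Real.exp_add]; simp
  have := mul_le_mul_of_nonneg_right h (exp_pos z).le
  linarith

/-- smoothness constant -/
noncomputable def cSm (p : ℝ) : ℝ := p ^ 2 / 2 * exp (p ^ 2 / 2)

lemma cSm_nonneg (p : ℝ) : 0 ≤ cSm p := by unfold cSm; positivity

lemma two_pt_smooth {p : ℝ} (hp : 0 < p) (y A : ℝ) :
    (|y + A| ^ p + |y - A| ^ p) / 2 ≤ |y| ^ p + 2 ^ p * |A| ^ p + cSm p * A ^ 2 * |y| ^ (p - 2) := by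
  have hc := cSm_nonneg p
  have n1 : 0 ≤ |y| ^ p := by positivity
  have n2 : 0 ≤ 2 ^ p * |A| ^ p := by positivity
  have n3 : 0 ≤ cSm p * A ^ 2 * |y| ^ (p - 2) := by positivity
  rcases le_or_gt |y| |A| with h | h
  · have h1 : |y + A| ^ p ≤ 2 ^ p * |A| ^ p := by
      rw [← Real.mul_rpow (by norm_num) (abs_nonneg _)]
      exact Real.rpow_le_rpow (abs_nonneg _) (by have := abs_add_le y A; linarith) hp.le
    have h2 : |y - A| ^ p ≤ 2 ^ p * |A| ^ p := by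
      rw [← Real.mul_rpow (by norm_num) (abs_nonneg _)]
      exact Real.rpow_le_rpow (abs_nonneg _) (by have := abs_sub y A; linarith) hp.le
    linarith
  · have hy : 0 < |y| := lt_of_le_of_lt (abs_nonneg _) h
    have hy0 : y ≠ 0 := abs_pos.1 hy
    set t := A / y with ht
    have ht1 : |t| < 1 := by rw [ht, abs_div, div_lt_one hy]; exact h
    have key : ∀ s : ℝ, |s| < 1 → |y * (1 + s)| ^ p ≤ |y| ^ p * exp (p * s) := by
      intro s hs
      have hs' : 0 ≤ 1 + s := by have := neg_abs_le s; linarith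
      rw [abs_mul, abs_of_nonneg hs', Real.mul_rpow hy.le hs']
      refine mul_le_mul_of_nonneg_left ?_ n1
      rw [mul_comm p s, Real.exp_mul]
      exact Real.rpow_le_rpow hs' (by have := Real.add_one_le_exp s; linarith) hp.le
    have k1 := key t ht1
    have k2 := key (-t) (by rwa [abs_neg])
    have e1 : y * (1 + t) = y + A := by rw [ht]; field_simp
    have e2 : y * (1 + -t) = y - A := by rw [ht]; field_simp; ring
    rw [e1] at k1
    rw [e2] at k2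
    have k3 : (exp (p * t) + exp (p * -t)) / 2 ≤ exp ((p * t) ^ 2 / 2) := by
      have := Real.cosh_le_exp_half_sq (p * t)
      rw [Real.cosh_eq] at this
      rwa [mul_neg]
    have t2 : t ^ 2 ≤ 1 := by
      rw [← sq_abs]; have := abs_nonneg t; nlinarith
    have k4 : exp ((p * t) ^ 2 / 2) ≤ 1 + cSm p * t ^ 2 := by
      refine exp_le_one_add_mul.trans ?_
      have : exp ((p * t) ^ 2 / 2) ≤ exp (p ^ 2 / 2) := by
        refine Real.exp_le_exp.2 ?_
        have := mul_le_mul_of_nonneg_left t2 (sq_nonneg p)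
        rw [mul_pow]; linarith
      have := mul_le_mul_of_nonneg_left this (by positivity : 0 ≤ (p * t) ^ 2 / 2)
      unfold cSm
      rw [mul_pow] at this ⊢
      linarith
    have e3 : |y| ^ p * t ^ 2 = A ^ 2 * |y| ^ (p - 2) := by
      rw [Real.rpow_sub hy, ht, div_pow, ← sq_abs y]
      have : |y| ^ (2 : ℝ) = |y| ^ 2 := by exact_mod_cast Real.rpow_natCast |y| 2
      rw [this]; ring
    have k5 := mul_le_mul_of_nonneg_left (k3.trans k4) n1
    have : |y| ^ p * (1 + cSm p * t ^ 2) = |y| ^ p + cSm p * A ^ 2 * |y| ^ (p - 2) := by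
      rw [mul_assoc, ← e3]; ring
    nlinarith

/-- Young type inequality -/
lemma young_var {p : ℝ} (hp : 2 ≤ p) {V y : ℝ} (hV : 0 ≤ V) :
    V * |y| ^ (p - 2) ≤ |y| ^ p + V ^ (p / 2) := by
  have n1 : 0 ≤ |y| ^ p := by positivity
  have n2 : 0 ≤ V ^ (p / 2) := by positivity
  rcases le_or_gt V (y ^ 2) with h | h
  · have : V * |y| ^ (p - 2) ≤ y ^ 2 * |y| ^ (p - 2) :=
      mul_le_mul_of_nonneg_right h (by positivity)
    have e : y ^ 2 * |y| ^ (p - 2) = |y| ^ p := by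
      have h2 : |y| ^ (2 : ℝ) = y ^ 2 := by rw [← sq_abs y]; exact_mod_cast Real.rpow_natCast |y| 2
      rw [← h2, ← Real.rpow_add' (abs_nonneg y) (by linarith)]; congr 1; ring
    linarith
  · have hV' : 0 < V := lt_of_le_of_lt (sq_nonneg y) h
    have h1 : |y| ^ (p - 2) ≤ V ^ ((p - 2) / 2) := by
      rw [abs_rpow_eq_sq]
      exact Real.rpow_le_rpow (sq_nonneg _) h.le (by linarith)
    have h2 := mul_le_mul_of_nonneg_left h1 hV
    have e : V * V ^ ((p - 2) / 2) = V ^ (p / 2) := by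
      rw [rpow_eq_split (q := p / 2) hV', mul_comm]; congr 2; ring
    linarith

/-- perturbation inequality -/
lemma exists_perturb {p ε : ℝ} (hp : 0 < p) (hε : 0 < ε) :
    ∃ C : ℝ, 0 < C ∧ ∀ a b : ℝ, |a + b| ^ p ≤ (1 + ε) * |a| ^ p + C * |b| ^ p := by
  set τ := (1 + ε) ^ (1 / p) - 1 with hτ
  have hτ0 : 0 < τ := by
    have := Real.one_lt_rpow (by linarith : 1 < 1 + ε) (by positivity : 0 < 1 / p)
    linarith
  have hτp : (1 + τ) ^ p = 1 + ε := by
    rw [hτ, add_sub_cancel, ← Real.rpow_mul (by linarith), one_div_mul_cancel hp.ne',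
      Real.rpow_one]
  refine ⟨(1 + 1 / τ) ^ p, by positivity, fun a b => ?_⟩
  have n1 : 0 ≤ (1 + ε) * |a| ^ p := by positivity
  have n2 : 0 ≤ (1 + 1 / τ) ^ p * |b| ^ p := by positivity
  have hab := abs_add_le a b
  rcases le_or_gt |b| (τ * |a|) with h | h
  · have : |a + b| ^ p ≤ (1 + ε) * |a| ^ p := by
      rw [← hτp, ← Real.mul_rpow (by linarith) (abs_nonneg _)]
      exact Real.rpow_le_rpow (abs_nonneg _) (by linarith) hp.le
    linarith
  · have : |a + b| ^ p ≤ (1 + 1 / τ) ^ p * |b| ^ p := by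
      rw [← Real.mul_rpow (by positivity) (abs_nonneg _)]
      refine Real.rpow_le_rpow (abs_nonneg _) ?_ hp.le
      have : |a| ≤ 1 / τ * |b| := by
        rw [one_div, ← div_eq_inv_mul, le_div_iff₀ hτ0]; linarith
      linarith
    linarith

/-- polynomial versus exponential -/
lemma rpow_le_exp_half {p z : ℝ} (hp : 0 < p) (hz : 0 ≤ z) :
    z ^ p ≤ (2 * p) ^ p * exp (z / 2) := by
  have h1 : z ≤ 2 * p * exp (z / (2 * p)) := by
    have := Real.add_one_le_exp (z / (2 * p))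
    have h2 : z = 2 * p * (z / (2 * p)) := by field_simp
    conv_lhs => rw [h2]
    exact mul_le_mul_of_nonneg_left (by linarith) (by positivity)
  refine (Real.rpow_le_rpow hz h1 hp.le).trans (le_of_eq ?_)
  rw [Real.mul_rpow (by positivity) (exp_pos _).le, ← Real.exp_mul]
  congr 2; field_simp

end Crest.Agent.R232
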