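import Mathlib
import Crest.Agent.R232.TwoPoint

/-! Dyadic levels, geometric sums and trapezoidal windows. -/

set_option autoImplicit false
open Finset Real

namespace Crest.Agent.R232

/-- geometric series constant -/
noncomputable def cG (r : ℝ) : ℝ := (1 - (2 : ℝ) ^ (-r))⁻¹

lemma cG_pos {r : ℝ} (hr : 0 < r) : 0 < cG r := by
  have : (2 : ℝ) ^ (-r) < 1 := Real.rpow_lt_one_of_one_lt_of_neg (by norm_num) (by linarith)
  unfold cG; apply inv_pos.2; linarith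

lemma two_zpow_pos (l : ℤ) : (0 : ℝ) < 2 ^ l := by positivity

lemma zpow_le_iff_lev {x : ℝ} (hx : 0 < x) (l : ℤ) : (2 : ℝ) ^ l ≤ x ↔ l ≤ Int.log 2 x := by
  have := Int.zpow_le_iff_le_log (R := ℝ) (b := 2) (by norm_num) (x := l) hx
  simpa using this

lemma geom_low {r x : ℝ} (hr : 0 < r) (hx : 0 ≤ x) (L : Finset ℤ) :
    ∑ l ∈ L, (if (2 : ℝ) ^ l ≤ x then ((2 : ℝ) ^ l) ^ r else 0) ≤ cG r * x ^ r := by
  have hc := cG_pos hr
  rcases hx.eq_or_lt with h | h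
  · rw [Finset.sum_eq_zero]
    · positivity
    · intro l _
      rw [if_neg]; rw [← h]; exact not_le.2 (two_zpow_pos l)
  set k := Int.log 2 x with hk
  set q : ℝ := 2 ^ (-r) with hq
  have hq0 : 0 ≤ q := by positivity
  have hq1 : q < 1 := Real.rpow_lt_one_of_one_lt_of_neg (by norm_num) (by linarith)
  rw [← Finset.sum_filter]
  set S := L.filter (fun l => (2 : ℝ) ^ l ≤ x) with hS
  have hSk : ∀ l ∈ S, l ≤ k := fun l hl => (zpow_le_iff_lev h l).1 (Finset.mem_filter.1 hl).2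
  have h1 : ∑ l ∈ S, ((2 : ℝ) ^ l) ^ r = ((2 : ℝ) ^ k) ^ r * ∑ l ∈ S, q ^ (k - l).toNat := by
    rw [Finset.mul_sum]
    refine Finset.sum_congr rfl fun l hl => ?_
    have h2 : (((k - l).toNat : ℕ) : ℝ) = (k : ℝ) - l := by
      have : (((k - l).toNat : ℕ) : ℤ) = k - l := Int.toNat_of_nonneg (by have := hSk l hl; omega)
      exact_mod_cast this
    rw [hq, ← Real.rpow_natCast, ← Real.rpow_intCast, ← Real.rpow_intCast,
      ← Real.rpow_mul (by norm_num), ← Real.rpow_mul (by norm_num), ← Real.rpow_mul (by norm_num),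
      ← Real.rpow_add (by norm_num), h2]
    congr 1; ring
  have h3 : ∑ l ∈ S, q ^ (k - l).toNat ≤ cG r := by
    rw [← Finset.sum_image (f := fun n : ℕ => q ^ n) (g := fun l : ℤ => (k - l).toNat) (s := S)]
    · refine ((summable_geometric_of_lt_one hq0 hq1).sum_le_tsum _ fun n _ => by positivity).trans ?_
      rw [tsum_geometric_of_lt_one hq0 hq1]; rfl
    · intro a ha b hb hab
      have := hSk a ha; have := hSk b hb
      simp only at hab; omega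
  have h4 : ((2 : ℝ) ^ k) ^ r ≤ x ^ r :=
    Real.rpow_le_rpow (by positivity) ((zpow_le_iff_lev h k).2 le_rfl) hr.le
  rw [h1, mul_comm]
  exact mul_le_mul h3 h4 (by positivity) hc.le

lemma geom_high {r x : ℝ} (hr : 0 < r) (hx : 0 < x) (L : Finset ℤ) :
    ∑ l ∈ L, (if (2 : ℝ) ^ l ≤ x then 0 else ((2 : ℝ) ^ l) ^ (-r)) ≤ cG r * x ^ (-r) := by
  have h := geom_low hr (inv_pos.2 hx).le (L.image fun l => -l)
  rw [Finset.sum_image (fun a _ b _ hab => neg_injective hab), Real.inv_rpow hx.le,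
    ← Real.rpow_neg hx.le] at h
  refine le_trans (Finset.sum_le_sum fun l _ => ?_) h
  split_ifs with h1 h2 h2
  · positivity
  · exact le_rfl
  · rw [zpow_neg, Real.inv_rpow (by positivity), ← Real.rpow_neg (by positivity)]
  · exfalso; apply h2
    rw [zpow_neg]
    exact inv_anti₀ hx (not_le.1 h1).le

/-- high part -/
noncomputable def hi (l : ℤ) (s : ℝ) : ℝ := if (2 : ℝ) ^ l ≤ |s| then s else 0

/-- low part -/
noncomputable def lo (l : ℤ) (s : ℝ) : ℝ := if (2 : ℝ) ^ l ≤ |s| then 0 else s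

lemma hi_eq (l : ℤ) (s : ℝ) : hi l s = s - lo l s := by
  unfold hi lo; split_ifs <;> simp

lemma abs_lo_le (l : ℤ) (s : ℝ) : |lo l s| ≤ 2 ^ l := by
  unfold lo; split_ifs with h
  · simpa using (two_zpow_pos l).le
  · exact (not_le.1 h).le

lemma sum_hi_abs {p : ℝ} (hp : 1 < p) (s : ℝ) (L : Finset ℤ) :
    ∑ l ∈ L, ((2 : ℝ) ^ l) ^ (p - 1) * |hi l s| ≤ cG (p - 1) * |s| ^ p := by
  have h := mul_le_mul_of_nonneg_right (geom_low (by linarith : 0 < p - 1) (abs_nonneg s) L)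
    (abs_nonneg s)
  rw [mul_assoc, ← Real.rpow_add_one' (abs_nonneg s) (by linarith), sub_add_cancel,
    Finset.sum_mul] at h
  refine le_trans (le_of_eq (Finset.sum_congr rfl fun l _ => ?_)) h
  unfold hi; split_ifs <;> simp

lemma rpow_sub_two_mul_sq {p : ℝ} (hp : 0 < p) (s : ℝ) : |s| ^ (p - 2) * s ^ 2 = |s| ^ p := by
  have h2 : |s| ^ (2 : ℝ) = s ^ 2 := by rw [← sq_abs s]; exact_mod_cast Real.rpow_natCast |s| 2
  rw [← h2, ← Real.rpow_add' (abs_nonneg s) (by linarith)]; congr 1; ring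

lemma sum_hi_sq {p : ℝ} (hp : 2 < p) (s : ℝ) (L : Finset ℤ) :
    ∑ l ∈ L, ((2 : ℝ) ^ l) ^ (p - 2) * hi l s ^ 2 ≤ cG (p - 2) * |s| ^ p := by
  have h := mul_le_mul_of_nonneg_right (geom_low (by linarith : 0 < p - 2) (abs_nonneg s) L)
    (sq_nonneg s)
  rw [mul_assoc, rpow_sub_two_mul_sq (by linarith), Finset.sum_mul] at h
  refine le_trans (le_of_eq (Finset.sum_congr rfl fun l _ => ?_)) h
  unfold hi; split_ifs <;> simp

lemma sum_lo_sq {p : ℝ} (hp0 : 0 < p) (hp : p < 2) (s : ℝ) (L : Finset ℤ) :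
    ∑ l ∈ L, ((2 : ℝ) ^ l) ^ (p - 2) * lo l s ^ 2 ≤ cG (2 - p) * |s| ^ p := by
  rcases eq_or_ne s 0 with rfl | hs
  · simp [lo, Real.zero_rpow hp0.ne']
  have h := mul_le_mul_of_nonneg_right (geom_high (by linarith : 0 < 2 - p) (abs_pos.2 hs) L)
    (sq_nonneg s)
  rw [neg_sub, mul_assoc, rpow_sub_two_mul_sq hp0, Finset.sum_mul] at h
  refine le_trans (le_of_eq (Finset.sum_congr rfl fun l _ => ?_)) h
  unfold lo; split_ifs <;> simp

/-- moving average -/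
noncomputable def mav (J : ℕ) (e : ℤ → ℝ) (k : ℤ) : ℝ := (∑ a ∈ Icc (1 : ℤ) J, e (k + a)) / J

/-- trapezoidal band -/
noncomputable def al (J : ℕ) (j : ℤ) (s : ℝ) : ℝ :=
  mav J (fun l => hi l s) j - mav J (fun l => hi l s) (j + 2 * J)

/-- ramp -/
noncomputable def psi (J : ℕ) (i : ℤ) : ℝ := (∑ a ∈ Icc (1 : ℤ) J, if a ≤ i then (1 : ℝ) else 0) / J

/-- trapezoid -/
noncomputable def chi (J : ℕ) (i : ℤ) : ℝ := psi J i - psi J (i - 2 * J)

lemma card_Icc_one (J : ℕ) : (Icc (1 : ℤ) J).card = J := by simp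

lemma psi_nonneg (J : ℕ) (i : ℤ) : 0 ≤ psi J i :=
  div_nonneg (Finset.sum_nonneg fun a _ => by split_ifs <;> norm_num) (Nat.cast_nonneg _)

lemma psi_le_one (J : ℕ) (i : ℤ) : psi J i ≤ 1 := by
  refine div_le_one_of_le₀ ?_ (Nat.cast_nonneg _)
  have := Finset.sum_le_card_nsmul (Icc (1 : ℤ) J) (fun a => if a ≤ i then (1 : ℝ) else 0) 1
    fun a _ => by split_ifs <;> norm_num
  rwa [card_Icc_one, nsmul_eq_mul, mul_one] at this

lemma psi_zero (J : ℕ) {i : ℤ} (hi : i ≤ 0) : psi J i = 0 := by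
  unfold psi
  rw [Finset.sum_eq_zero, zero_div]
  intro a ha
  rw [Finset.mem_Icc] at ha
  rw [if_neg (by omega)]

lemma psi_one {J : ℕ} (hJ : 0 < J) {i : ℤ} (hi : (J : ℤ) ≤ i) : psi J i = 1 := by
  unfold psi
  rw [Finset.sum_congr rfl (g := fun _ => 1), Finset.sum_const, card_Icc_one, nsmul_eq_mul,
    mul_one, div_self (by exact_mod_cast hJ.ne')]
  intro a ha
  rw [Finset.mem_Icc] at ha
  rw [if_pos (by omega)]

lemma abs_chi_le (J : ℕ) (i : ℤ) : |chi J i| ≤ 1 := by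
  have := psi_nonneg J i; have := psi_le_one J i
  have := psi_nonneg J (i - 2 * J); have := psi_le_one J (i - 2 * J)
  rw [chi, abs_le]; constructor <;> linarith

lemma chi_support {J : ℕ} (hJ : 0 < J) {i : ℤ} (h : chi J i ≠ 0) : 0 < i ∧ i < 3 * J := by
  by_contra hc
  apply h
  rcases le_or_gt i 0 with h1 | h1
  · rw [chi, psi_zero J h1, psi_zero J (by omega), sub_zero]
  · rw [chi, psi_one hJ (by omega), psi_one hJ (by omega), sub_self]

lemma chi_one {J : ℕ} (hJ : 0 < J) {i : ℤ} (h1 : (J : ℤ) ≤ i) (h2 : i ≤ 2 * J) : chi J i = 1 := by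
  rw [chi, psi_one hJ h1, psi_zero J (by omega), sub_zero]

/-- total mass of the trapezoid -/
noncomputable def cJ (J : ℕ) (p : ℝ) : ℝ := ∑ i ∈ Icc (0 : ℤ) (3 * J), |chi J i| ^ p

lemma le_cJ {J : ℕ} (hJ : 0 < J) (p : ℝ) : (J : ℝ) ≤ cJ J p := by
  have h1 : ∑ i ∈ Icc (J + 1 : ℤ) (2 * J), |chi J i| ^ p = J := by
    rw [Finset.sum_congr rfl (g := fun _ => 1), Finset.sum_const, nsmul_eq_mul, mul_one]
    · have : (Icc (J + 1 : ℤ) (2 * J)).card = J := by rw [Int.card_Icc]; omega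
      rw [this]
    · intro a ha
      rw [Finset.mem_Icc] at ha
      rw [chi_one hJ (by omega) ha.2]; simp
  rw [← h1]
  refine Finset.sum_le_sum_of_subset_of_nonneg (Finset.Icc_subset_Icc (by omega) (by omega))
    fun i _ _ => by positivity

lemma mav_hi (J : ℕ) (k : ℤ) {s : ℝ} (hs : s ≠ 0) :
    mav J (fun l => hi l s) k = s * psi J (Int.log 2 |s| - k) := by
  unfold mav psi
  rw [← mul_div_assoc, Finset.mul_sum]
  congr 1
  refine Finset.sum_congr rfl fun a _ => ?_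
  unfold hi
  simp only [zpow_le_iff_lev (abs_pos.2 hs)]
  by_cases h : k + a ≤ Int.log 2 |s|
  · rw [if_pos h, if_pos (by omega), mul_one]
  · rw [if_neg h, if_neg (by omega), mul_zero]

lemma al_zero (J : ℕ) (j : ℤ) : al J j 0 = 0 := by simp [al, mav, hi]

lemma al_eq (J : ℕ) (j : ℤ) {s : ℝ} (hs : s ≠ 0) :
    al J j s = s * chi J (Int.log 2 |s| - j) := by
  rw [al, mav_hi J _ hs, mav_hi J _ hs, chi, mul_sub]; congr 3; ring

lemma abs_al_le (J : ℕ) (j : ℤ) (s : ℝ) : |al J j s| ≤ |s| := by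
  rcases eq_or_ne s 0 with rfl | hs
  · simp [al_zero]
  · rw [al_eq J j hs, abs_mul]; exact mul_le_of_le_one_right (abs_nonneg _) (abs_chi_le _ _)

lemma al_support {J : ℕ} (hJ : 0 < J) {j : ℤ} {s : ℝ} (h : al J j s ≠ 0) :
    (2 : ℝ) ^ j ≤ |s| ∧ |s| ≤ 2 ^ (j + 3 * J) := by
  have hs : s ≠ 0 := fun hs => h (hs ▸ al_zero J j)
  rw [al_eq J j hs] at h
  obtain ⟨h1, h2⟩ := chi_support hJ (right_ne_zero_of_mul h)
  refine ⟨(zpow_le_iff_lev (abs_pos.2 hs) j).2 (by omega), ?_⟩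
  by_contra hc
  have := (zpow_le_iff_lev (abs_pos.2 hs) _).1 (not_le.1 hc).le
  omega

lemma abs_al_le_zpow {J : ℕ} (hJ : 0 < J) (j : ℤ) (s : ℝ) : |al J j s| ≤ 2 ^ j * 8 ^ J := by
  by_cases h : al J j s = 0
  · rw [h, abs_zero]; positivity
  · refine (abs_al_le J j s).trans ((al_support hJ h).2.trans (le_of_eq ?_))
    rw [zpow_add₀ (by norm_num), zpow_mul, zpow_natCast]; norm_num

lemma abs_al_le_hi {J : ℕ} (hJ : 0 < J) (j : ℤ) (s : ℝ) : |al J j s| ≤ |hi j s| := by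
  by_cases h : al J j s = 0
  · rw [h, abs_zero]; positivity
  · rw [hi, if_pos (al_support hJ h).1]; exact abs_al_le J j s

lemma sum_al_rpow {J : ℕ} (hJ : 0 < J) {p : ℝ} (hp : 0 < p) (s : ℝ) (Js : Finset ℤ)
    (hJs : ∀ i ∈ Icc (0 : ℤ) (3 * J), Int.log 2 |s| - i ∈ Js) :
    ∑ j ∈ Js, |al J j s| ^ p = cJ J p * |s| ^ p := by
  rcases eq_or_ne s 0 with rfl | hs
  · simp [al_zero, Real.zero_rpow hp.ne']
  set k := Int.log 2 |s| with hk
  rw [← Finset.sum_subset (s₁ := (Icc (0 : ℤ) (3 * J)).image fun i => k - i),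
    Finset.sum_image (fun a _ b _ hab => by simpa using hab), cJ, Finset.sum_mul]
  · refine Finset.sum_congr rfl fun i _ => ?_
    rw [al_eq J _ hs, abs_mul, Real.mul_rpow (abs_nonneg _) (abs_nonneg _), mul_comm, ← hk,
      sub_sub_cancel]
  · intro j hj
    obtain ⟨i, hi, rfl⟩ := Finset.mem_image.1 hj
    exact hJs i hi
  · intro j _ hj
    have : chi J (k - j) = 0 := by
      by_contra hc
      obtain ⟨h1, h2⟩ := chi_support hJ hc
      exact hj (Finset.mem_image.2 ⟨k - j, Finset.mem_Icc.2 ⟨by omega, by omega⟩, by ring⟩)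
    rw [al_eq J _ hs, ← hk, this]; simp [Real.zero_rpow hp.ne']

lemma sum_rare {J : ℕ} (hJ : 0 < J) {p : ℝ} (hp : 0 < p) (s : ℝ) (Js : Finset ℤ) :
    ∑ j ∈ Js, (if al J j s = 0 then 0 else ((2 : ℝ) ^ j) ^ p) ≤ cG p * |s| ^ p := by
  refine le_trans (Finset.sum_le_sum fun j _ => ?_) (geom_low hp (abs_nonneg s) Js)
  by_cases h : al J j s = 0
  · rw [if_pos h]; split_ifs <;> positivity
  · rw [if_neg h, if_pos (al_support hJ h).1]

/-! ### moving average estimates -/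

lemma window_sum (J : ℕ) (c : ℤ) (K L : Finset ℤ) (w : ℤ → ℝ) (hw : ∀ l, 0 ≤ w l)
    (hL : ∀ k ∈ K, ∀ a ∈ Icc (1 : ℤ) J, k + c + a ∈ L) :
    ∑ k ∈ K, ∑ a ∈ Icc (1 : ℤ) J, w (k + c + a) ≤ J * ∑ l ∈ L, w l := by
  rw [Finset.sum_comm]
  have := Finset.sum_le_card_nsmul (Icc (1 : ℤ) J) (fun a => ∑ k ∈ K, w (k + c + a))
    (∑ l ∈ L, w l) fun a ha => by
      rw [← Finset.sum_image (f := w) (g := fun k => k + c + a) (s := K)
        (fun a _ b _ hab => by simpa using hab)]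
      refine Finset.sum_le_sum_of_subset_of_nonneg (fun l hl => ?_) fun l _ _ => hw l
      obtain ⟨k, hk, rfl⟩ := Finset.mem_image.1 hl
      exact hL k hk a ha
  rwa [card_Icc_one, nsmul_eq_mul] at this

lemma mav_rpow_le {J : ℕ} (hJ : 0 < J) {p : ℝ} (hp : 1 ≤ p) (e : ℤ → ℝ) (k : ℤ) :
    |mav J e k| ^ p ≤ (∑ a ∈ Icc (1 : ℤ) J, |e (k + a)| ^ p) / J := by
  have hJ' : (0 : ℝ) < J := by exact_mod_cast hJ
  have h1 := Real.rpow_sum_le_const_mul_sum_rpow (Icc (1 : ℤ) J) (fun a => e (k + a)) hp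
  rw [card_Icc_one] at h1
  have h2 : |∑ a ∈ Icc (1 : ℤ) J, e (k + a)| ^ p ≤ (∑ a ∈ Icc (1 : ℤ) J, |e (k + a)|) ^ p :=
    Real.rpow_le_rpow (abs_nonneg _) (Finset.abs_sum_le_sum_abs _ _) (by linarith)
  rw [mav, abs_div, abs_of_pos hJ', Real.div_rpow (abs_nonneg _) hJ'.le,
    div_le_iff₀ (by positivity)]
  refine (h2.trans h1).trans (le_of_eq ?_)
  rw [Real.rpow_sub_one hJ'.ne']; ring

lemma sum_mav_rpow {J : ℕ} (hJ : 0 < J) {p : ℝ} (hp : 1 ≤ p) (e : ℤ → ℝ) (c : ℤ) (K L : Finset ℤ)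
    (hL : ∀ k ∈ K, ∀ a ∈ Icc (1 : ℤ) J, k + c + a ∈ L) :
    ∑ k ∈ K, |mav J e (k + c)| ^ p ≤ ∑ l ∈ L, |e l| ^ p := by
  have hJ' : (0 : ℝ) < J := by exact_mod_cast hJ
  refine (Finset.sum_le_sum fun k _ => mav_rpow_le hJ hp e (k + c)).trans ?_
  rw [← Finset.sum_div, div_le_iff₀' hJ']
  exact window_sum J c K L (fun l => |e l| ^ p) (fun l => by positivity) hL

lemma sum_mav_sq {J : ℕ} (hJ : 0 < J) {r : ℝ} (hr : 0 ≤ r) (e : ℤ → ℝ) {c : ℤ} (hc : 0 ≤ c)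
    (K L : Finset ℤ) (hL : ∀ k ∈ K, ∀ a ∈ Icc (1 : ℤ) J, k + c + a ∈ L) :
    ∑ k ∈ K, ((2 : ℝ) ^ k) ^ r * mav J e (k + c) ^ 2 ≤ ∑ l ∈ L, ((2 : ℝ) ^ l) ^ r * e l ^ 2 := by
  have hJ' : (0 : ℝ) < J := by exact_mod_cast hJ
  have h1 : ∀ k, ((2 : ℝ) ^ k) ^ r * mav J e (k + c) ^ 2 ≤
      (∑ a ∈ Icc (1 : ℤ) J, ((2 : ℝ) ^ (k + c + a)) ^ r * e (k + c + a) ^ 2) / J := by
    intro k
    have h2 := mav_rpow_le hJ (p := 2) (by norm_num) e (k + c)
    simp only [Real.rpow_two, sq_abs] at h2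
    refine (mul_le_mul_of_nonneg_left h2 (by positivity)).trans ?_
    rw [← mul_div_assoc, Finset.mul_sum]
    refine div_le_div_of_nonneg_right (Finset.sum_le_sum fun a ha => ?_) hJ'.le
    rw [Finset.mem_Icc] at ha
    refine mul_le_mul_of_nonneg_right (Real.rpow_le_rpow (by positivity) ?_ hr) (sq_nonneg _)
    exact zpow_le_zpow_right₀ (by norm_num) (by omega)
  refine (Finset.sum_le_sum fun k _ => h1 k).trans ?_
  rw [← Finset.sum_div, div_le_iff₀' hJ']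
  exact window_sum J c K L (fun l => ((2 : ℝ) ^ l) ^ r * e l ^ 2) (fun l => by positivity) hL

/-- constant of the lacunary estimate -/
noncomputable def cW (p : ℝ) : ℝ := (cG 1 + cG ((p - 2) / 2)) ^ p

lemma cW_pos {p : ℝ} (hp : 2 < p) : 0 < cW p := by
  have := cG_pos one_pos
  have := cG_pos (by linarith : 0 < (p - 2) / 2)
  unfold cW; positivity

lemma lacunary_one {p : ℝ} (hp : 2 < p) (e : ℤ → ℝ) (S : Finset ℤ) (he : ∀ l, |e l| ≤ 2 ^ l) :
    |∑ l ∈ S, e l| ^ p ≤ cW p * ∑ l ∈ S, ((2 : ℝ) ^ l) ^ (p - 2) * e l ^ 2 := by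
  have hp0 : 0 < p := by linarith
  have c1 := cG_pos one_pos
  have c2 := cG_pos (by linarith : 0 < (p - 2) / 2)
  set W := ∑ l ∈ S, ((2 : ℝ) ^ l) ^ (p - 2) * e l ^ 2 with hW
  have hWl : ∀ l ∈ S, ((2 : ℝ) ^ l) ^ (p - 2) * e l ^ 2 ≤ W := fun l hl =>
    Finset.single_le_sum (f := fun l => ((2 : ℝ) ^ l) ^ (p - 2) * e l ^ 2)
      (fun l _ => by positivity) hl
  have hW0 : 0 ≤ W := Finset.sum_nonneg fun l _ => by positivity
  rcases hW0.eq_or_lt with h | h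
  · rw [Finset.sum_eq_zero, ← h]
    · simp [Real.zero_rpow hp0.ne']
    · intro l hl
      have h1 := hWl l hl
      rw [← h] at h1
      have h2 : e l ^ 2 ≤ 0 := by
        by_contra hc
        exact absurd h1 (not_le.2 (mul_pos (by positivity) (not_le.1 hc)))
      exact pow_eq_zero_iff (two_ne_zero) |>.1 (le_antisymm h2 (sq_nonneg _))
  set x := W ^ (1 / p) with hx
  have hx0 : 0 < x := by positivity
  have hxp : x ^ p = W := by
    rw [hx, ← Real.rpow_mul hW0, one_div_mul_cancel hp0.ne', Real.rpow_one]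
  have h1 : ∀ l ∈ S, |e l| ≤ (if (2 : ℝ) ^ l ≤ x then ((2 : ℝ) ^ l) ^ (1 : ℝ) else 0) +
      x ^ (p / 2) * (if (2 : ℝ) ^ l ≤ x then 0 else ((2 : ℝ) ^ l) ^ (-((p - 2) / 2))) := by
    intro l hl
    split_ifs with h2
    · simpa using he l
    · rw [zero_add]
      refine abs_le_of_sq_le_sq ?_ (by positivity)
      have t0 : (0 : ℝ) < 2 ^ l := two_zpow_pos l
      rw [mul_pow, ← Real.rpow_two (x ^ _), ← Real.rpow_two ((_ : ℝ) ^ (-((p - 2) / 2))),
        ← Real.rpow_mul hx0.le, ← Real.rpow_mul t0.le, show p / 2 * 2 = p by ring,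
        show -((p - 2) / 2) * 2 = -(p - 2) by ring, hxp, Real.rpow_neg t0.le, ← div_eq_mul_inv,
        le_div_iff₀' (by positivity)]
      exact hWl l hl
  have h2 : ∑ l ∈ S, |e l| ≤ (cG 1 + cG ((p - 2) / 2)) * x := by
    refine (Finset.sum_le_sum h1).trans ?_
    rw [Finset.sum_add_distrib, ← Finset.mul_sum]
    have a1 := geom_low one_pos hx0.le S
    have a2 := mul_le_mul_of_nonneg_left (geom_high (by linarith : 0 < (p - 2) / 2) hx0 S)
      (by positivity : 0 ≤ x ^ (p / 2))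
    have e1 : x ^ (p / 2) * (cG ((p - 2) / 2) * x ^ (-((p - 2) / 2))) = cG ((p - 2) / 2) * x := by
      rw [mul_left_comm, ← Real.rpow_add hx0, show p / 2 + -((p - 2) / 2) = 1 by ring,
        Real.rpow_one]
    rw [Real.rpow_one x] at a1
    linarith
  refine (Real.rpow_le_rpow (abs_nonneg _) ((Finset.abs_sum_le_sum_abs _ _).trans h2)
    hp0.le).trans (le_of_eq ?_)
  rw [Real.mul_rpow (by positivity) hx0.le, hxp, cW]

lemma lacunary {p ρ : ℝ} (hp : 2 < p) (hρ : 0 < ρ) (e : ℤ → ℝ) (S : Finset ℤ)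
    (he : ∀ l, |e l| ≤ ρ * 2 ^ l) :
    |∑ l ∈ S, e l| ^ p ≤ cW p * ρ ^ (p - 2) * ∑ l ∈ S, ((2 : ℝ) ^ l) ^ (p - 2) * e l ^ 2 := by
  have h := lacunary_one hp (fun l => e l / ρ) S fun l => by
    rw [abs_div, abs_of_pos hρ, div_le_iff₀' hρ]; exact he l
  rw [← Finset.sum_div, abs_div, abs_of_pos hρ, Real.div_rpow (abs_nonneg _) hρ.le,
    div_le_iff₀ (by positivity)] at h
  refine h.trans (le_of_eq ?_)
  simp only [div_pow, ← mul_div_assoc, ← Finset.sum_div]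
  rw [Real.rpow_sub hρ, Real.rpow_two]; ring

lemma sum_mav_lac {J : ℕ} (hJ : 0 < J) {p ρ : ℝ} (hp : 2 < p) (hρ : 0 < ρ) (e : ℤ → ℝ)
    (he : ∀ l, |e l| ≤ ρ * 2 ^ l) (c : ℤ) (K L : Finset ℤ)
    (hL : ∀ k ∈ K, ∀ a ∈ Icc (1 : ℤ) J, k + c + a ∈ L) :
    ∑ k ∈ K, |mav J e (k + c)| ^ p ≤
      cW p * ρ ^ (p - 2) / J ^ p * J * ∑ l ∈ L, ((2 : ℝ) ^ l) ^ (p - 2) * e l ^ 2 := by
  have hJ' : (0 : ℝ) < J := by exact_mod_cast hJ
  have hc := cW_pos hp
  have h1 : ∀ k, |mav J e (k + c)| ^ p ≤ cW p * ρ ^ (p - 2) / J ^ p *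
      ∑ a ∈ Icc (1 : ℤ) J, ((2 : ℝ) ^ (k + c + a)) ^ (p - 2) * e (k + c + a) ^ 2 := by
    intro k
    have h2 := lacunary hp hρ e ((Icc (1 : ℤ) J).image fun a => k + c + a) he
    rw [Finset.sum_image (fun a _ b _ hab => by simpa using hab),
      Finset.sum_image (fun a _ b _ hab => by simpa using hab)] at h2
    rw [mav, abs_div, abs_of_pos hJ', Real.div_rpow (abs_nonneg _) hJ'.le, div_mul_eq_mul_div]
    exact div_le_div_of_nonneg_right h2 (by positivity)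
  refine (Finset.sum_le_sum fun k _ => h1 k).trans ?_
  rw [← Finset.mul_sum, mul_assoc _ (J : ℝ)]
  exact mul_le_mul_of_nonneg_left (window_sum J c K L
    (fun l => ((2 : ℝ) ^ l) ^ (p - 2) * e l ^ 2) (fun l => by positivity) hL) (by positivity)

lemma interp_small {p lam : ℝ} (hp1 : 1 ≤ p) (hp2 : p ≤ 2) (hl : 0 < lam) (e : ℝ) :
    |e| ^ p ≤ lam ^ (p - 1) * |e| + lam ^ (p - 2) * e ^ 2 := by
  have n1 : 0 ≤ lam ^ (p - 1) * |e| := by positivity
  have n2 : 0 ≤ lam ^ (p - 2) * e ^ 2 := by positivity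
  rcases le_total |e| lam with h | h
  · have : |e| ^ p = |e| ^ (p - 1) * |e| := by
      rw [← Real.rpow_add_one' (abs_nonneg e) (by linarith), sub_add_cancel]
    have h2 := mul_le_mul_of_nonneg_right
      (Real.rpow_le_rpow (abs_nonneg e) h (by linarith : 0 ≤ p - 1)) (abs_nonneg e)
    linarith
  · have h2 := mul_le_mul_of_nonneg_right
      (Real.rpow_le_rpow_of_nonpos hl h (by linarith : p - 2 ≤ 0)) (sq_nonneg e)
    rw [rpow_sub_two_mul_sq (by linarith)] at h2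
    linarith

end Crest.Agent.R232
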