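import Mathlib
import Crest.Agent.R232.TwoPoint

/-! A discretised symmetric compound Poisson walk and its moments. -/

set_option autoImplicit false
open Finset Real

namespace Crest.Agent.R232

variable {G Θ : Type*} [AddCommGroup G] [Fintype Θ]

/-- generator of the symmetric jump process -/
noncomputable def gen (m : Θ → ℝ) (j : Θ → G) (F : G → ℝ) (x : G) : ℝ :=
  ∑ θ, m θ * ((F (x + j θ) + F (x - j θ)) / 2 - F x)

/-- one step of the walk -/
noncomputable def step (m : Θ → ℝ) (j : Θ → G) (M : ℕ) : (G → ℝ) →ₗ[ℝ] (G → ℝ) where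
  toFun F x := F x + gen m j F x / M
  map_add' F F' := by
    funext x
    have : gen m j (F + F') x = gen m j F x + gen m j F' x := by
      simp only [gen, Pi.add_apply, ← Finset.sum_add_distrib]
      exact Finset.sum_congr rfl fun θ _ => by ring
    simp only [Pi.add_apply, this]; ring
  map_smul' c F := by
    funext x
    have : gen m j (c • F) x = c * gen m j F x := by
      simp only [gen, Pi.smul_apply, smul_eq_mul, Finset.mul_sum]
      exact Finset.sum_congr rfl fun θ _ => by ring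
    simp only [Pi.smul_apply, this, smul_eq_mul, RingHom.id_apply]; ring

lemma step_apply (m : Θ → ℝ) (j : Θ → G) (M : ℕ) (F : G → ℝ) (x : G) :
    step m j M F x = F x + gen m j F x / M := rfl

/-- expectation after `i` steps, started at `0` -/
noncomputable def Ex (m : Θ → ℝ) (j : Θ → G) (M i : ℕ) : (G → ℝ) →ₗ[ℝ] ℝ :=
  (LinearMap.proj (R := ℝ) (φ := fun _ : G => ℝ) 0) ∘ₗ ((step m j M) ^ i)

lemma Ex_zero (m : Θ → ℝ) (j : Θ → G) (M : ℕ) (F : G → ℝ) : Ex m j M 0 F = F 0 := by
  simp [Ex]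

lemma Ex_succ (m : Θ → ℝ) (j : Θ → G) (M i : ℕ) (F : G → ℝ) :
    Ex m j M (i + 1) F = Ex m j M i (step m j M F) := by
  simp [Ex, pow_succ]

lemma step_const (m : Θ → ℝ) (j : Θ → G) (M : ℕ) (c : ℝ) :
    step m j M (fun _ => c) = fun _ => c := by
  funext x; simp [step_apply, gen]

lemma Ex_const (m : Θ → ℝ) (j : Θ → G) (M i : ℕ) (c : ℝ) : Ex m j M i (fun _ => c) = c := by
  induction i with
  | zero => rw [Ex_zero]
  | succ i ih => rw [Ex_succ, step_const, ih]

section
variable {m : Θ → ℝ} {j : Θ → G} {M : ℕ} (hm : ∀ θ, 0 ≤ m θ) (hM : ∑ θ, m θ ≤ M) (hM0 : 0 < M)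
include hm hM hM0

lemma step_ge {F : G → ℝ} {x : G} {c : ℝ} (h0 : c ≤ F x) (h1 : ∀ θ, c ≤ F (x + j θ))
    (h2 : ∀ θ, c ≤ F (x - j θ)) : c ≤ step m j M F x := by
  have hM' : (0 : ℝ) < M := by exact_mod_cast hM0
  rw [step_apply]
  have h3 : (∑ θ, m θ) * (c - F x) ≤ gen m j F x := by
    rw [gen, Finset.sum_mul]
    refine Finset.sum_le_sum fun θ _ => mul_le_mul_of_nonneg_left ?_ (hm θ)
    have := h1 θ; have := h2 θ; linarith
  have h4 : (M : ℝ) * (c - F x) ≤ (∑ θ, m θ) * (c - F x) :=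
    mul_le_mul_of_nonpos_right hM (by linarith)
  have : c - F x ≤ gen m j F x / M := by
    rw [le_div_iff₀ hM']; linarith
  linarith

lemma Ex_nonneg (i : ℕ) : ∀ F : G → ℝ, (∀ x, 0 ≤ F x) → 0 ≤ Ex m j M i F := by
  induction i with
  | zero => intro F hF; rw [Ex_zero]; exact hF 0
  | succ i ih =>
    intro F hF
    rw [Ex_succ]
    exact ih _ fun x => step_ge hm hM hM0 (hF _) (fun _ => hF _) (fun _ => hF _)

lemma Ex_mono (i : ℕ) {F F' : G → ℝ} (h : ∀ x, F x ≤ F' x) : Ex m j M i F ≤ Ex m j M i F' := by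
  have := Ex_nonneg (j := j) hm hM hM0 i (F' - F) fun x => by simpa using h x
  rw [map_sub] at this; linarith

lemma exists_le_Ex (i : ℕ) : ∀ F : G → ℝ, ∃ x, F x ≤ Ex m j M i F := by
  classical
  induction i with
  | zero => intro F; exact ⟨0, by rw [Ex_zero]⟩
  | succ i ih =>
    intro F
    obtain ⟨x, hx⟩ := ih (step m j M F)
    obtain ⟨z, -, hz⟩ := Finset.exists_min_image
      (insert x (univ.image (fun θ => x + j θ) ∪ univ.image (fun θ => x - j θ))) F
      (Finset.insert_nonempty _ _)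
    rw [Ex_succ]
    refine ⟨z, le_trans ?_ hx⟩
    refine step_ge hm hM hM0 (hz _ (Finset.mem_insert_self _ _)) (fun θ => hz _ ?_)
      (fun θ => hz _ ?_)
    · exact Finset.mem_insert_of_mem (Finset.mem_union_left _ (Finset.mem_image_of_mem _ (mem_univ θ)))
    · exact Finset.mem_insert_of_mem
        (Finset.mem_union_right _ (Finset.mem_image_of_mem _ (mem_univ θ)))

lemma rec_upper {F H : G → ℝ} {c b : ℝ} (hc : 0 ≤ c) (hb : 0 ≤ b) (hF0 : 0 ≤ F 0)
    (h : ∀ x, gen m j F x ≤ c * F x + H x) (hH : ∀ i ≤ M, Ex m j M i H ≤ b) :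
    ∀ i ≤ M, Ex m j M i F ≤ exp c * (F 0 + b) := by
  have hM' : (0 : ℝ) < M := by exact_mod_cast hM0
  have hq : 1 ≤ 1 + c / M := by have : 0 ≤ c / M := by positivity
                                linarith
  have key : ∀ i ≤ M, Ex m j M i F ≤ (1 + c / M) ^ i * (F 0 + i * (b / M)) := by
    intro i
    induction i with
    | zero => intro _; simp [Ex_zero]
    | succ i ih =>
      intro hi
      have ih' := ih (by omega)
      have h1 : Ex m j M (i + 1) F ≤ Ex m j M i ((1 + c / M) • F + (1 / M : ℝ) • H) := by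
        rw [Ex_succ]
        refine Ex_mono hm hM hM0 i fun x => ?_
        simp only [step_apply, Pi.add_apply, Pi.smul_apply, smul_eq_mul]
        have := div_le_div_of_nonneg_right (h x) hM'.le
        have e : (c * F x + H x) / M = c / M * F x + 1 / M * H x := by ring
        linarith
      rw [map_add, map_smul, map_smul, smul_eq_mul, smul_eq_mul] at h1
      have h2 : 1 / (M : ℝ) * Ex m j M i H ≤ b / M := by
        have := mul_le_mul_of_nonneg_left (hH i (by omega)) (by positivity : 0 ≤ 1 / (M : ℝ))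
        have e : 1 / (M : ℝ) * b = b / M := by ring
        linarith
      have h3 := mul_le_mul_of_nonneg_left ih' (by linarith : 0 ≤ 1 + c / M)
      have h4 : b / M ≤ (1 + c / M) ^ (i + 1) * (b / M) :=
        le_mul_of_one_le_left (by positivity) (one_le_pow₀ hq)
      have e : (1 + c / M) ^ (i + 1) * (F 0 + ((i + 1 : ℕ) : ℝ) * (b / M)) =
          (1 + c / M) * ((1 + c / M) ^ i * (F 0 + i * (b / M))) + (1 + c / M) ^ (i + 1) * (b / M) := by
        push_cast; ring
      linarith
  intro i hi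
  refine (key i hi).trans ?_
  have hi' : (i : ℝ) ≤ M := by exact_mod_cast hi
  have h1 : (1 + c / M) ^ i ≤ exp c := by
    calc (1 + c / M) ^ i ≤ (exp (c / M)) ^ i :=
          pow_le_pow_left₀ (by linarith) (by have := Real.add_one_le_exp (c / M); linarith) _
      _ = exp (i * (c / M)) := by rw [Real.exp_nat_mul]
      _ ≤ exp c := by
          refine Real.exp_le_exp.2 ?_
          have := mul_le_mul_of_nonneg_right hi' (by positivity : 0 ≤ c / M)
          have e : (M : ℝ) * (c / M) = c := by field_simp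
          linarith
  have h2 : i * (b / M) ≤ b := by
    have := mul_le_mul_of_nonneg_right hi' (by positivity : 0 ≤ b / M)
    have e : (M : ℝ) * (b / M) = b := by field_simp
    linarith
  exact mul_le_mul h1 (by linarith) (by positivity) (exp_pos c).le

lemma rec_lower {F H : G → ℝ} {b : ℝ} (h : ∀ x, H x ≤ gen m j F x)
    (hH : ∀ i ≤ M, b ≤ Ex m j M i H) : F 0 + b ≤ Ex m j M M F := by
  have hM' : (0 : ℝ) < M := by exact_mod_cast hM0
  have key : ∀ i ≤ M, F 0 + i * (b / M) ≤ Ex m j M i F := by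
    intro i
    induction i with
    | zero => intro _; simp [Ex_zero]
    | succ i ih =>
      intro hi
      have ih' := ih (by omega)
      have h1 : Ex m j M i (F + (1 / M : ℝ) • H) ≤ Ex m j M (i + 1) F := by
        rw [Ex_succ]
        refine Ex_mono hm hM hM0 i fun x => ?_
        simp only [step_apply, Pi.add_apply, Pi.smul_apply, smul_eq_mul]
        have := div_le_div_of_nonneg_right (h x) hM'.le
        have e : H x / M = 1 / M * H x := by ring
        linarith
      rw [map_add, map_smul, smul_eq_mul] at h1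
      have h2 : b / M ≤ 1 / (M : ℝ) * Ex m j M i H := by
        have := mul_le_mul_of_nonneg_left (hH i (by omega)) (by positivity : 0 ≤ 1 / (M : ℝ))
        have e : 1 / (M : ℝ) * b = b / M := by ring
        linarith
      push_cast
      linarith
  have := key M le_rfl
  have e : (M : ℝ) * (b / M) = b := by field_simp
  linarith

/-- the probability that the coordinate has moved -/
lemma Ex_moved (l : G →+ ℝ) {κ : ℝ} (hκ : ∑ θ, (if l (j θ) = 0 then 0 else m θ) ≤ κ) :
    ∀ i ≤ M, Ex m j M i (fun x => if l x = 0 then 0 else 1) ≤ κ := by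
  have hκ0 : 0 ≤ κ := le_trans (Finset.sum_nonneg fun θ _ => by split_ifs; exacts [le_rfl, hm θ]) hκ
  intro i hi
  have := rec_upper (j := j) hm hM hM0 (F := fun x => if l x = 0 then 0 else 1) (H := fun _ => κ)
    (c := 0) (b := κ) le_rfl hκ0 (by simp) ?_ (fun i _ => (Ex_const _ _ _ _ _).le) i hi
  · simpa using this
  · intro x
    rw [zero_mul, zero_add]
    refine le_trans (Finset.sum_le_sum fun θ _ => ?_) hκ
    by_cases h : l (j θ) = 0
    · simp [h]
    · rw [if_neg h]
      refine mul_le_of_le_one_right (hm θ) ?_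
      beta_reduce
      split_ifs <;> norm_num

lemma moment_lower {p : ℝ} (hp : 1 ≤ p) (l : G →+ ℝ) {κ P : ℝ}
    (hκ : ∑ θ, (if l (j θ) = 0 then 0 else m θ) ≤ κ) (hP : ∑ θ, m θ * |l (j θ)| ^ p = P) :
    (1 - κ) * P ≤ Ex m j M M (fun x => |l x| ^ p) := by
  have hP0 : 0 ≤ P := hP ▸ Finset.sum_nonneg fun θ _ => mul_nonneg (hm θ) (by positivity)
  have hp0 : p ≠ 0 := by linarith
  have := rec_lower (j := j) hm hM hM0 (F := fun x => |l x| ^ p)
    (H := (fun _ => P) - P • fun x => if l x = 0 then 0 else 1) (b := (1 - κ) * P) ?_ ?_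
  · simpa [Real.zero_rpow hp0] using this
  · intro x
    simp only [Pi.sub_apply, Pi.smul_apply, smul_eq_mul, gen, map_add, map_sub]
    by_cases h : l x = 0
    · simp [h, Real.zero_rpow hp0, hP]
    · rw [if_neg h, mul_one, sub_self]
      refine Finset.sum_nonneg fun θ _ => mul_nonneg (hm θ) ?_
      have := two_pt_lower hp (l x) (l (j θ))
      linarith
  · intro i hi
    rw [map_sub, map_smul, Ex_const, smul_eq_mul]
    have := mul_le_mul_of_nonneg_left (Ex_moved hm hM hM0 l hκ i hi) hP0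
    linarith

lemma moment_upper {p : ℝ} (hp : 0 < p) (l : G →+ ℝ) {κ P : ℝ}
    (hκ : ∑ θ, (if l (j θ) = 0 then 0 else m θ) ≤ κ) (hP : ∑ θ, m θ * |l (j θ)| ^ p = P) :
    Ex m j M M (fun x => |l x| ^ p) ≤ exp (2 ^ p * κ) * ((1 + 2 ^ p * κ) * P) := by
  have hP0 : 0 ≤ P := hP ▸ Finset.sum_nonneg fun θ _ => mul_nonneg (hm θ) (by positivity)
  have hκ0 : 0 ≤ κ := le_trans (Finset.sum_nonneg fun θ _ => by split_ifs; exacts [le_rfl, hm θ]) hκ
  have := rec_upper (j := j) hm hM hM0 (F := fun x => |l x| ^ p)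
    (H := (fun _ => P) + (2 ^ p * P) • fun x => if l x = 0 then 0 else 1) (c := 2 ^ p * κ)
    (b := (1 + 2 ^ p * κ) * P) (by positivity) (by positivity) (by positivity) ?_ ?_ M le_rfl
  · simpa [Real.zero_rpow hp.ne'] using this
  · intro x
    simp only [Pi.add_apply, Pi.smul_apply, smul_eq_mul, gen, map_add, map_sub]
    by_cases h : l x = 0
    · simp [h, Real.zero_rpow hp.ne', hP]
    · rw [if_neg h, mul_one]
      have h1 : ∑ θ, m θ * ((|l x + l (j θ)| ^ p + |l x - l (j θ)| ^ p) / 2 - |l x| ^ p) ≤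
          ∑ θ, (2 ^ p * |l x| ^ p * (if l (j θ) = 0 then 0 else m θ) +
            2 ^ p * (m θ * |l (j θ)| ^ p)) := by
        refine Finset.sum_le_sum fun θ _ => ?_
        by_cases h2 : l (j θ) = 0
        · simp [h2, Real.zero_rpow hp.ne']
        · rw [if_neg h2]
          have h3 := two_pt_crude hp.le (l x) (l (j θ))
          have h4 : 0 ≤ |l x| ^ p := by positivity
          have := mul_le_mul_of_nonneg_left (by linarith :
            (|l x + l (j θ)| ^ p + |l x - l (j θ)| ^ p) / 2 - |l x| ^ p ≤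
              2 ^ p * (|l x| ^ p + |l (j θ)| ^ p)) (hm θ)
          linarith
      rw [Finset.sum_add_distrib, ← Finset.mul_sum, ← Finset.mul_sum, hP] at h1
      have := mul_le_mul_of_nonneg_left hκ (by positivity : 0 ≤ 2 ^ p * |l x| ^ p)
      linarith
  · intro i hi
    rw [map_add, map_smul, Ex_const, smul_eq_mul]
    have := mul_le_mul_of_nonneg_left (Ex_moved hm hM hM0 l hκ i hi)
      (by positivity : 0 ≤ 2 ^ p * P)
    linarith

lemma moment_small {p : ℝ} (hp : 0 < p) (hp2 : p ≤ 2) (l : G →+ ℝ) {Q : ℝ}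
    (hQ : ∑ θ, m θ * |l (j θ)| ^ p ≤ Q) : Ex m j M M (fun x => |l x| ^ p) ≤ Q := by
  have hQ0 : 0 ≤ Q := le_trans (Finset.sum_nonneg fun θ _ => mul_nonneg (hm θ) (by positivity)) hQ
  have := rec_upper (j := j) hm hM hM0 (F := fun x => |l x| ^ p)
    (H := fun _ => Q) (c := 0) (b := Q) le_rfl hQ0 (by positivity) ?_
    (fun i _ => (Ex_const _ _ _ _ _).le) M le_rfl
  · simpa [Real.zero_rpow hp.ne'] using this
  · intro x
    simp only [gen, map_add, map_sub, zero_mul, zero_add]
    refine le_trans (Finset.sum_le_sum fun θ _ => mul_le_mul_of_nonneg_left ?_ (hm θ)) hQ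
    have := two_pt_small hp.le hp2 (l x) (l (j θ))
    linarith

lemma moment_large {p : ℝ} (hp2 : 2 ≤ p) (l : G →+ ℝ) {Q V : ℝ}
    (hQ : ∑ θ, m θ * |l (j θ)| ^ p ≤ Q) (hV : ∑ θ, m θ * l (j θ) ^ 2 ≤ V) :
    Ex m j M M (fun x => |l x| ^ p) ≤ exp 1 * (2 ^ p * Q + (cSm p * V) ^ (p / 2)) := by
  have hp : 0 < p := by linarith
  have hc := cSm_nonneg p
  have hQ0 : 0 ≤ Q := le_trans (Finset.sum_nonneg fun θ _ => mul_nonneg (hm θ) (by positivity)) hQ
  have hV0 : 0 ≤ V := le_trans (Finset.sum_nonneg fun θ _ => mul_nonneg (hm θ) (by positivity)) hV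
  have := rec_upper (j := j) hm hM hM0 (F := fun x => |l x| ^ p)
    (H := fun _ => 2 ^ p * Q + (cSm p * V) ^ (p / 2)) (c := 1)
    (b := 2 ^ p * Q + (cSm p * V) ^ (p / 2)) zero_le_one (by positivity) (by positivity) ?_
    (fun i _ => (Ex_const _ _ _ _ _).le) M le_rfl
  · simpa [Real.zero_rpow hp.ne'] using this
  · intro x
    simp only [gen, map_add, map_sub, one_mul]
    have h1 : ∑ θ, m θ * ((|l x + l (j θ)| ^ p + |l x - l (j θ)| ^ p) / 2 - |l x| ^ p) ≤
        ∑ θ, (2 ^ p * (m θ * |l (j θ)| ^ p) + cSm p * |l x| ^ (p - 2) * (m θ * l (j θ) ^ 2)) := by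
      refine Finset.sum_le_sum fun θ _ => ?_
      have h3 := two_pt_smooth hp (l x) (l (j θ))
      have := mul_le_mul_of_nonneg_left (by linarith :
        (|l x + l (j θ)| ^ p + |l x - l (j θ)| ^ p) / 2 - |l x| ^ p ≤
          2 ^ p * |l (j θ)| ^ p + cSm p * l (j θ) ^ 2 * |l x| ^ (p - 2)) (hm θ)
      linarith
    rw [Finset.sum_add_distrib, ← Finset.mul_sum, ← Finset.mul_sum] at h1
    have h2 := mul_le_mul_of_nonneg_left hQ (by positivity : (0 : ℝ) ≤ 2 ^ p)
    have h3 := mul_le_mul_of_nonneg_left hV (by positivity : 0 ≤ cSm p * |l x| ^ (p - 2))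
    have h4 := young_var hp2 (y := l x) (mul_nonneg hc hV0)
    linarith

lemma moment_cosh (l : G →+ ℝ) {B : ℝ} (hB : 0 < B) (h1 : ∀ θ, |l (j θ)| ≤ B)
    (h2 : ∑ θ, m θ * |l (j θ)| ≤ B) : Ex m j M M (fun x => cosh (l x / B)) ≤ exp 1 := by
  have := rec_upper (j := j) hm hM hM0 (F := fun x => cosh (l x / B))
    (H := fun _ => 0) (c := 1) (b := 0) zero_le_one le_rfl (by simp) ?_
    (fun i _ => (Ex_const _ _ _ _ _).le) M le_rfl
  · simpa using this
  · intro x
    simp only [gen, map_add, map_sub, one_mul, add_zero]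
    have hc : 0 ≤ cosh (l x / B) := (Real.cosh_pos _).le
    have h3 : ∑ θ, m θ * ((cosh ((l x + l (j θ)) / B) + cosh ((l x - l (j θ)) / B)) / 2 -
        cosh (l x / B)) ≤ ∑ θ, cosh (l x / B) / B * (m θ * |l (j θ)|) := by
      refine Finset.sum_le_sum fun θ _ => ?_
      rw [add_div (l x), sub_div (l x), Real.cosh_add, Real.cosh_sub]
      set z := l (j θ) / B with hz
      have hz1 : |z| ≤ 1 := by rw [hz, abs_div, abs_of_pos hB, div_le_one hB]; exact h1 θ
      have hz2 : z ^ 2 ≤ |z| := by rw [← sq_abs]; have := abs_nonneg z; nlinarith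
      have h4 : cosh z ≤ 1 + |z| := by
        refine (Real.cosh_le_exp_half_sq z).trans ?_
        have h5 : |z ^ 2 / 2| ≤ 1 := by rw [abs_of_nonneg (by positivity)]; linarith
        have h6 := Real.abs_exp_sub_one_le h5
        rw [abs_of_nonneg (by positivity : 0 ≤ z ^ 2 / 2)] at h6
        have := le_abs_self (exp (z ^ 2 / 2) - 1)
        linarith
      have h7 : |z| = |l (j θ)| / B := by rw [hz, abs_div, abs_of_pos hB]
      have h8 := mul_le_mul_of_nonneg_left h4 (mul_nonneg (hm θ) hc)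
      have e : cosh (l x / B) / B * (m θ * |l (j θ)|) = m θ * cosh (l x / B) * |z| := by
        rw [h7]; ring
      rw [e]; linarith
    rw [← Finset.mul_sum] at h3
    have h4 := mul_le_mul_of_nonneg_left h2 (by positivity : 0 ≤ cosh (l x / B) / B)
    have e : cosh (l x / B) / B * B = cosh (l x / B) := by field_simp
    linarith

end

end Crest.Agent.R232
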