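import Mathlib
import Crest.Agent.R232.Walk

/-! Merging rare jumps into few coordinates. -/

set_option autoImplicit false
open Finset Real

namespace Crest.Agent.R232

/-- greedy (derandomised) Hoeffding sampling -/
lemma sample {G I : Type*} [Fintype I] (E : (G → ℝ) →ₗ[ℝ] ℝ)
    (hmono : ∀ F F' : G → ℝ, (∀ x, F x ≤ F' x) → E F ≤ E F') (hone : ∀ c, E (fun _ => c) = c)
    (hex : ∀ F : G → ℝ, ∃ x, F x ≤ E F) (z : I → G → ℝ) {R ε B : ℝ} (hε : 0 < ε) (hεR : ε ≤ R)
    (hz : ∀ i x, |z i x| ≤ R) (hE : ∀ i, E (z i) ≤ 0) (hI : (Fintype.card I : ℝ) ≤ exp B)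
    (d : ℕ) (hd : 4 * R ^ 2 * B / ε ^ 2 ≤ d) :
    ∃ x : Fin d → G, ∀ i, ∑ k, z i (x k) ≤ d * ε := by
  have hR : 0 < R := lt_of_lt_of_le hε hεR
  set η := ε / (2 * R ^ 2) with hη
  have hη0 : 0 < η := by positivity
  have hηR : η * R ≤ 1 := by
    have : η * R = ε / R / 2 := by rw [hη]; field_simp
    have h2 : ε / R ≤ 1 := (div_le_one hR).2 hεR
    linarith
  have hmgf : ∀ i, E (fun y => exp (η * z i y)) ≤ exp (η ^ 2 * R ^ 2) := by
    intro i
    have h1 : E (fun y => exp (η * z i y)) ≤ E ((fun _ => 1 + η ^ 2 * R ^ 2) + η • z i) := by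
      refine hmono _ _ fun y => ?_
      simp only [Pi.add_apply, Pi.smul_apply, smul_eq_mul]
      have h2 : |η * z i y| ≤ η * R := by
        rw [abs_mul, abs_of_pos hη0]; exact mul_le_mul_of_nonneg_left (hz i y) hη0.le
      have h3 := Real.abs_exp_sub_one_sub_id_le (h2.trans hηR)
      have h4 : (η * z i y) ^ 2 ≤ (η * R) ^ 2 := by
        rw [← sq_abs]; exact pow_le_pow_left₀ (abs_nonneg _) h2 2
      have := le_abs_self (exp (η * z i y) - 1 - η * z i y)
      rw [mul_pow η R] at h4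
      linarith
    rw [map_add, map_smul, hone, smul_eq_mul] at h1
    have := mul_le_mul_of_nonneg_left (hE i) hη0.le
    have := Real.add_one_le_exp (η ^ 2 * R ^ 2)
    linarith
  have key : ∀ k : ℕ, ∃ x : Fin k → G,
      ∑ i, exp (η * ∑ a, z i (x a)) ≤ Fintype.card I * exp (k * (η ^ 2 * R ^ 2)) := by
    intro k
    induction k with
    | zero => exact ⟨Fin.elim0, by simp⟩
    | succ k ih =>
      obtain ⟨x, hx⟩ := ih
      obtain ⟨y, hy⟩ := hex (∑ i, exp (η * ∑ a, z i (x a)) • fun y => exp (η * z i y))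
      refine ⟨Fin.cons y x, ?_⟩
      rw [map_sum] at hy
      simp only [map_smul, smul_eq_mul, Finset.sum_apply, Pi.smul_apply] at hy
      have h1 : ∑ i, exp (η * ∑ a, z i (x a)) * E (fun y => exp (η * z i y)) ≤
          (∑ i, exp (η * ∑ a, z i (x a))) * exp (η ^ 2 * R ^ 2) := by
        rw [Finset.sum_mul]
        exact Finset.sum_le_sum fun i _ => mul_le_mul_of_nonneg_left (hmgf i) (exp_pos _).le
      have h2 := mul_le_mul_of_nonneg_right hx (exp_pos (η ^ 2 * R ^ 2)).le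
      have e1 : ∑ i, exp (η * ∑ a : Fin (k + 1), z i ((Fin.cons y x : Fin (k + 1) → G) a)) =
          ∑ i, exp (η * ∑ a, z i (x a)) * exp (η * z i y) := by
        refine Finset.sum_congr rfl fun i _ => ?_
        rw [Fin.sum_univ_succ, ← Real.exp_add]
        simp only [Fin.cons_zero, Fin.cons_succ]
        congr 1; ring
      have e2 : (Fintype.card I : ℝ) * exp (((k + 1 : ℕ) : ℝ) * (η ^ 2 * R ^ 2)) =
          Fintype.card I * exp (k * (η ^ 2 * R ^ 2)) * exp (η ^ 2 * R ^ 2) := by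
        rw [mul_assoc, ← Real.exp_add]; push_cast; congr 2; ring
      rw [e1, e2]
      linarith
  obtain ⟨x, hx⟩ := key d
  refine ⟨x, fun i => ?_⟩
  have h1 : exp (η * ∑ a, z i (x a)) ≤ exp (B + d * (η ^ 2 * R ^ 2)) := by
    rw [Real.exp_add]
    refine le_trans (Finset.single_le_sum (f := fun i => exp (η * ∑ a, z i (x a)))
      (fun i _ => (exp_pos _).le) (mem_univ i)) (hx.trans ?_)
    exact mul_le_mul_of_nonneg_right hI (exp_pos _).le
  rw [Real.exp_le_exp] at h1
  have h2 : B ≤ d * (η * (ε / 2)) := by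
    rw [div_le_iff₀ (by positivity)] at hd
    have e : d * (η * (ε / 2)) = d * ε ^ 2 / (4 * R ^ 2) := by rw [hη]; field_simp; ring
    rw [e, le_div_iff₀ (by positivity)]; linarith
  have e3 : η ^ 2 * R ^ 2 = η * (ε / 2) := by rw [hη]; field_simp
  rw [e3] at h1
  have : η * ∑ a, z i (x a) ≤ η * (d * ε) := by linarith
  exact le_of_mul_le_mul_left this hη0

/-- linear functional on coefficient vectors -/
def lin {Θ : Type*} [Fintype Θ] (c : Θ → ℝ) : (Θ → ℝ) →+ ℝ where
  toFun x := ∑ θ, x θ * c θ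
  map_zero' := by simp
  map_add' x y := by simp [add_mul, Finset.sum_add_distrib]

lemma lin_apply {Θ : Type*} [Fintype Θ] (c x : Θ → ℝ) : lin c x = ∑ θ, x θ * c θ := rfl

lemma lin_single {Θ : Type*} [Fintype Θ] [DecidableEq Θ] (c : Θ → ℝ) (θ : Θ) :
    lin c (Pi.single θ 1) = c θ := by
  simp [lin_apply, Pi.single_apply]

lemma lin_add {Θ : Type*} [Fintype Θ] (a b x : Θ → ℝ) :
    lin (fun θ => a θ + b θ) x = lin a x + lin b x := by
  simp [lin_apply, mul_add, Finset.sum_add_distrib]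

lemma tail_pt {p B t y : ℝ} (hp : 0 < p) (hB : 0 < B) (hy : B * t < |y|) :
    |y| ^ p ≤ B ^ p * (2 * p) ^ p * exp (-(t / 2)) * (2 * cosh (y / B)) := by
  set z := |y| / B with hz
  have hz0 : 0 ≤ z := by positivity
  have e1 : |y| = B * z := by rw [hz]; field_simp
  have h1 : t < z := by rw [hz, lt_div_iff₀ hB]; linarith
  have h2 := rpow_le_exp_half hp hz0
  have h3 : exp (z / 2) ≤ exp (-(t / 2)) * exp z := by
    rw [← Real.exp_add]; exact Real.exp_le_exp.2 (by linarith)
  have h4 : exp z ≤ 2 * cosh (y / B) := by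
    have : cosh (y / B) = cosh z := by
      rw [hz, ← Real.cosh_abs, abs_div, abs_of_pos hB]
    rw [this, Real.cosh_eq]
    have := exp_pos (-z)
    linarith
  rw [e1, Real.mul_rpow hB.le hz0]
  have h5 : exp (z / 2) ≤ exp (-(t / 2)) * (2 * cosh (y / B)) :=
    h3.trans (mul_le_mul_of_nonneg_left h4 (exp_pos _).le)
  have h6 := h2.trans (mul_le_mul_of_nonneg_left h5 (by positivity))
  have := mul_le_mul_of_nonneg_left h6 (by positivity : 0 ≤ B ^ p)
  linarith

/-- truncation and sampling -/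
lemma trunc_sample {G I : Type*} [AddCommGroup G] [Fintype I] (E : (G → ℝ) →ₗ[ℝ] ℝ)
    (hmono : ∀ F F' : G → ℝ, (∀ x, F x ≤ F' x) → E F ≤ E F') (hone : ∀ c, E (fun _ => c) = c)
    (hex : ∀ F : G → ℝ, ∃ x, F x ≤ E F) {p ε B : ℝ} (hp : 0 < p) (hε : 0 < ε) (hε1 : ε ≤ 1)
    (hB : 1 ≤ B) (hI : 2 * (Fintype.card I : ℝ) ≤ exp B) (Y : I → G →+ ℝ)
    (hcosh : ∀ i, E (fun x => cosh (Y i x / B)) ≤ exp 1) (d : ℕ)
    (hd : 4 * ((2 * (1 + p + |log (exp 1 * (2 * p) ^ p / ε)|) * B ^ 2) ^ p) ^ 2 * B / ε ^ 2 ≤ d) :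
    ∃ x : Fin d → G, ∀ i, d * (E (fun x => |Y i x| ^ p) - 2 * ε) ≤ ∑ k, |Y i (x k)| ^ p ∧
      ∑ k, |Y i (x k)| ^ p ≤ d * (E (fun x => |Y i x| ^ p) + ε) := by
  classical
  set c1 := log (exp 1 * (2 * p) ^ p / ε) with hc1
  set c2 := 2 * (1 + p + |c1|) with hc2
  have hc21 : 1 ≤ c2 := by have := abs_nonneg c1; linarith
  set T := c2 * B ^ 2 with hT
  have hB0 : 0 < B := by linarith
  have hT1 : 1 ≤ T := one_le_mul_of_one_le_of_one_le hc21 (one_le_pow₀ hB)
  have hR1 : 1 ≤ T ^ p := Real.one_le_rpow hT1 hp.le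
  set τ : G → G := fun x => if ∀ i, |Y i x| ≤ T then x else 0 with hτ
  set r : I → G → ℝ := fun i x => |Y i (τ x)| ^ p with hr
  have hr0 : ∀ i x, 0 ≤ r i x := fun i x => by positivity
  have hrR : ∀ i x, r i x ≤ T ^ p := by
    intro i x
    refine Real.rpow_le_rpow (abs_nonneg _) ?_ hp.le
    simp only [hτ]
    split_ifs with h
    · exact h i
    · simp; linarith
  have hEr0 : ∀ i, 0 ≤ E (r i) := fun i => by
    have := hmono (fun _ => 0) (r i) (hr0 i); rwa [hone] at this
  have hErR : ∀ i, E (r i) ≤ T ^ p := fun i => by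
    have := hmono (r i) (fun _ => T ^ p) (hrR i); rwa [hone] at this
  have hup : ∀ i, E (r i) ≤ E (fun x => |Y i x| ^ p) := by
    intro i
    refine hmono _ _ fun x => ?_
    simp only [hr, hτ]
    split_ifs with h
    · exact le_rfl
    · simp [Real.zero_rpow hp.ne']; positivity
  set K := B ^ p * (2 * p) ^ p * exp (-(c2 * B / 2)) * 2 with hK
  have hK0 : 0 ≤ K := by positivity
  have hlow : ∀ i, E (fun x => |Y i x| ^ p) ≤ E (r i) + ε := by
    intro i
    have h1 : E (fun x => |Y i x| ^ p) ≤ E (r i + K • ∑ i', fun x => cosh (Y i' x / B)) := by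
      refine hmono _ _ fun x => ?_
      simp only [Pi.add_apply, Pi.smul_apply, smul_eq_mul, Finset.sum_apply, hr, hτ]
      have hs : ∀ i', K * cosh (Y i' x / B) ≤ K * ∑ i', cosh (Y i' x / B) := fun i' =>
        mul_le_mul_of_nonneg_left (Finset.single_le_sum (f := fun i' => cosh (Y i' x / B))
          (fun i _ => (Real.cosh_pos _).le) (mem_univ i')) hK0
      split_ifs with h
      · have := hs i
        have := mul_nonneg hK0 (Real.cosh_pos (Y i x / B)).le
        linarith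
      · push Not at h
        obtain ⟨i0, hi0⟩ := h
        have hmax : ∃ i', T < |Y i' x| ∧ |Y i x| ≤ |Y i' x| := by
          rcases le_total |Y i x| |Y i0 x| with h | h
          · exact ⟨i0, hi0, h⟩
          · exact ⟨i, lt_of_lt_of_le hi0 h, le_rfl⟩
        obtain ⟨i', h1, h2⟩ := hmax
        have h3 := tail_pt (t := c2 * B) hp hB0 (y := Y i' x) (by rw [hT] at h1; linarith)
        have h4 : |Y i x| ^ p ≤ |Y i' x| ^ p := Real.rpow_le_rpow (abs_nonneg _) h2 hp.le
        have h5 := hs i'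
        have h6 : 0 ≤ |Y i 0| ^ p := by positivity
        rw [hK] at h5
        linarith
    rw [map_add, map_smul, map_sum, smul_eq_mul] at h1
    have h2 : ∑ i', E (fun x => cosh (Y i' x / B)) ≤ Fintype.card I * exp 1 := by
      have := Finset.sum_le_card_nsmul univ (fun i' => E (fun x => cosh (Y i' x / B))) (exp 1)
        fun i' _ => hcosh i'
      simpa using this
    have h3 : K * (Fintype.card I * exp 1) ≤ ε := by
      have a1 : B ^ p ≤ exp (p * B) := by
        rw [mul_comm, Real.exp_mul]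
        exact Real.rpow_le_rpow hB0.le (by have := Real.add_one_le_exp B; linarith) hp.le
      have a2 : exp 1 * (2 * p) ^ p ≤ ε * exp (|c1| * B) := by
        have b1 : exp c1 = exp 1 * (2 * p) ^ p / ε := Real.exp_log (by positivity)
        have b2 : exp c1 ≤ exp (|c1| * B) := Real.exp_le_exp.2
          ((le_abs_self c1).trans (le_mul_of_one_le_right (abs_nonneg _) hB))
        rw [b1, div_le_iff₀ hε] at b2
        linarith
      have a3 : exp B * exp (p * B) * exp (|c1| * B) * exp (-(c2 * B / 2)) = 1 := by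
        rw [← Real.exp_add, ← Real.exp_add, ← Real.exp_add, Real.exp_eq_one_iff, hc2]
        ring
      have a4 : (2 * (Fintype.card I : ℝ)) * B ^ p * (exp 1 * (2 * p) ^ p) ≤
          exp B * exp (p * B) * (ε * exp (|c1| * B)) :=
        mul_le_mul (mul_le_mul hI a1 (by positivity) (by positivity)) a2 (by positivity)
          (by positivity)
      have a5 := mul_le_mul_of_nonneg_right a4 (exp_pos (-(c2 * B / 2))).le
      have e1 : exp B * exp (p * B) * (ε * exp (|c1| * B)) * exp (-(c2 * B / 2)) = ε := by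
        rw [show exp B * exp (p * B) * (ε * exp (|c1| * B)) * exp (-(c2 * B / 2)) =
          ε * (exp B * exp (p * B) * exp (|c1| * B) * exp (-(c2 * B / 2))) by ring, a3, mul_one]
      rw [e1] at a5
      rw [hK]; linarith
    have := mul_le_mul_of_nonneg_left h2 hK0
    linarith
  obtain ⟨x, hx⟩ := sample E hmono hone hex (I := I ⊕ I)
    (Sum.elim (fun i => r i - fun _ => E (r i)) (fun i => (fun _ => E (r i)) - r i))
    (R := T ^ p) (B := B) hε (hε1.trans hR1) (by
      rintro (i | i) x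
      · simp only [Sum.elim_inl, Pi.sub_apply]
        have := hr0 i x; have := hrR i x; have := hEr0 i; have := hErR i
        rw [abs_le]; constructor <;> linarith
      · simp only [Sum.elim_inr, Pi.sub_apply]
        have := hr0 i x; have := hrR i x; have := hEr0 i; have := hErR i
        rw [abs_le]; constructor <;> linarith) (by
      rintro (i | i)
      · simp [hone]
      · simp [hone]) (by rw [Fintype.card_sum]; push_cast; linarith) d hd
  refine ⟨fun k => τ (x k), fun i => ⟨?_, ?_⟩⟩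
  · have := hx (Sum.inr i)
    simp only [Sum.elim_inr, Pi.sub_apply, Finset.sum_sub_distrib, Finset.sum_const,
      Finset.card_univ, Fintype.card_fin, nsmul_eq_mul] at this
    have h2 := mul_le_mul_of_nonneg_left (hlow i) (Nat.cast_nonneg (α := ℝ) d)
    change _ ≤ ∑ k, r i (x k)
    linarith
  · have := hx (Sum.inl i)
    simp only [Sum.elim_inl, Pi.sub_apply, Finset.sum_sub_distrib, Finset.sum_const,
      Finset.card_univ, Fintype.card_fin, nsmul_eq_mul] at this
    have h2 := mul_le_mul_of_nonneg_left (hup i) (Nat.cast_nonneg (α := ℝ) d)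
    change ∑ k, r i (x k) ≤ _
    linarith

set_option maxHeartbeats 800000 in
/-- merging rare jumps -/
theorem merge {p ε C0 : ℝ} (hp : 1 < p) (hε : 0 < ε) (hε1 : ε ≤ 1) (hC0 : 0 < C0) :
    ∃ η K : ℝ, 0 < η ∧ 0 < K ∧ ∀ (Θ I : Type) [Fintype Θ] [Fintype I] (m : Θ → ℝ)
      (a b : Θ → I → ℝ) (P B : ℝ), (∀ θ, 0 ≤ m θ) → 1 ≤ P → 1 ≤ B →
      2 * (Fintype.card I : ℝ) ≤ exp B →
      (∀ i, ∑ θ, (if a θ i = 0 then 0 else m θ) ≤ C0) →
      (∀ i, ∑ θ, m θ * |a θ i| ^ p = P) →
      (∀ i, ∑ θ, m θ * |b θ i| ^ p ≤ η * P) →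
      (2 ≤ p → ∀ i, (∑ θ, m θ * b θ i ^ 2) ^ (p / 2) ≤ η * P) →
      (∀ θ i, |a θ i + b θ i| ≤ B) → (∀ i, ∑ θ, m θ * |a θ i + b θ i| ≤ B) →
      ∃ d : ℕ, (d : ℝ) ≤ K * B ^ (4 * p + 1) ∧ ∃ (x : Fin d → Θ → ℝ) (c : ℝ), 0 < c ∧ ∀ i,
        (1 - 5 * ε) * c ≤ ∑ k, |∑ θ, x k θ * (a θ i + b θ i)| ^ p ∧
        ∑ k, |∑ θ, x k θ * (a θ i + b θ i)| ^ p ≤ (1 + 5 * ε) * c := by
  classical
  have hp0 : 0 < p := by linarith
  obtain ⟨C, hC, hpert⟩ := exists_perturb hp0 hε
  have h2p : (1 : ℝ) ≤ 2 ^ p := Real.one_le_rpow (by norm_num) hp0.le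
  set κ := min 1 (ε / (5 * 2 ^ p * C0)) with hκ
  have hκ0 : 0 < κ := lt_min one_pos (by positivity)
  have hκ1 : κ ≤ 1 := min_le_left _ _
  have hκ2 : 2 ^ p * (κ * C0) ≤ ε / 5 := by
    have : κ ≤ ε / (5 * 2 ^ p * C0) := min_le_right _ _
    rw [le_div_iff₀ (by positivity)] at this
    linarith
  have hκ3 : κ * C0 ≤ ε := by
    have := le_mul_of_one_le_left (mul_pos hκ0 hC0).le h2p
    linarith
  have hcs := cSm_nonneg p
  set Ce := exp 1 * (2 ^ p + cSm p ^ (p / 2)) with hCe
  have hCe1 : 1 ≤ Ce := by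
    have : 0 ≤ cSm p ^ (p / 2) := by positivity
    exact one_le_mul_of_one_le_of_one_le (Real.one_le_exp zero_le_one) (by linarith)
  set η := ε / (C * Ce) with hη
  have hη0 : 0 < η := by positivity
  set c2 := 2 * (1 + p + |log (exp 1 * (2 * p) ^ p / (ε * κ))|) with hc2
  have hc20 : 0 < c2 := by positivity
  refine ⟨η, 4 * (c2 ^ p) ^ 2 / (ε * κ) ^ 2 + 1, hη0, by positivity, ?_⟩
  intro Θ I _ _ m a b P B hm hP hB hI hrare hmain herr hvar hsup hL1
  have hB0 : 0 < B := by linarith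
  have hP0 : 0 < P := by linarith
  set m' : Θ → ℝ := fun θ => κ * m θ with hm'
  have hm'0 : ∀ θ, 0 ≤ m' θ := fun θ => mul_nonneg hκ0.le (hm θ)
  set M : ℕ := ⌈∑ θ, m' θ⌉₊ + 1 with hMdef
  have hM : ∑ θ, m' θ ≤ M := by
    rw [hMdef]; push_cast; have := Nat.le_ceil (∑ θ, m' θ); linarith
  have hM0 : 0 < M := Nat.succ_pos _
  set j : Θ → Θ → ℝ := fun θ => Pi.single θ 1 with hj
  have hlj : ∀ (c : Θ → ℝ) θ, lin c (j θ) = c θ := fun c θ => lin_single c θ
  set E := Ex m' j M M with hE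
  have hmono : ∀ F F' : (Θ → ℝ) → ℝ, (∀ x, F x ≤ F' x) → E F ≤ E F' :=
    fun F F' h => Ex_mono hm'0 hM hM0 M h
  have hsum : ∀ f : Θ → ℝ, ∑ θ, m' θ * f θ = κ * ∑ θ, m θ * f θ := fun f => by
    simp only [hm', Finset.mul_sum, mul_assoc]
  set d : ℕ := ⌈4 * ((c2 * B ^ 2) ^ p) ^ 2 * B / (ε * κ) ^ 2⌉₊ with hd
  have hd0 : 0 < d := Nat.ceil_pos.2 (by positivity)
  have hd0' : (0 : ℝ) < d := by exact_mod_cast hd0
  obtain ⟨x, hx⟩ := trunc_sample E hmono (Ex_const m' j M M) (exists_le_Ex hm'0 hM hM0 M) hp0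
    (mul_pos hε hκ0) (mul_le_one₀ hε1 hκ0.le hκ1) hB hI
    (fun i => lin (fun θ => a θ i + b θ i)) (fun i => by
      refine moment_cosh hm'0 hM hM0 _ hB0 (fun θ => by rw [hlj]; exact hsup θ i) ?_
      simp only [hlj]
      rw [hsum]
      exact (mul_le_of_le_one_left (Finset.sum_nonneg fun θ _ => mul_nonneg (hm θ) (abs_nonneg _))
        hκ1).trans (hL1 i)) d (Nat.le_ceil _)
  refine ⟨d, ?_, x, d * (κ * P), by positivity, fun i => ?_⟩
  · have h1 : (d : ℝ) < 4 * ((c2 * B ^ 2) ^ p) ^ 2 * B / (ε * κ) ^ 2 + 1 :=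
      Nat.ceil_lt_add_one (by positivity)
    have e : ((c2 * B ^ 2) ^ p) ^ 2 * B = (c2 ^ p) ^ 2 * B ^ (4 * p + 1) := by
      rw [Real.mul_rpow hc20.le (by positivity), mul_pow, Real.rpow_add_one hB0.ne',
        ← Real.rpow_natCast B 2, ← Real.rpow_mul hB0.le, ← Real.rpow_natCast (B ^ _) 2,
        ← Real.rpow_mul hB0.le, mul_assoc]
      congr 3; push_cast; ring
    have h2 : 1 ≤ B ^ (4 * p + 1) := Real.one_le_rpow hB (by linarith)
    have e2 : 4 * ((c2 * B ^ 2) ^ p) ^ 2 * B / (ε * κ) ^ 2 =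
        4 * (c2 ^ p) ^ 2 / (ε * κ) ^ 2 * B ^ (4 * p + 1) := by
      rw [mul_assoc 4, e]; ring
    linarith
  · obtain ⟨hx1, hx2⟩ := hx i
    have hr : ∑ θ, (if lin (fun θ => a θ i) (j θ) = 0 then 0 else m' θ) ≤ κ * C0 := by
      refine le_trans (le_of_eq ?_) (mul_le_mul_of_nonneg_left (hrare i) hκ0.le)
      rw [Finset.mul_sum]
      refine Finset.sum_congr rfl fun θ _ => ?_
      rw [hlj]; split_ifs <;> simp [hm']
    have hPa : ∑ θ, m' θ * |lin (fun θ => a θ i) (j θ)| ^ p = κ * P := by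
      simp only [hlj]; rw [hsum, hmain]
    have hlo := moment_lower hm'0 hM hM0 hp.le _ hr hPa
    have hhi := moment_upper hm'0 hM hM0 hp0 _ hr hPa
    have hQ : ∑ θ, m' θ * |lin (fun θ => b θ i) (j θ)| ^ p ≤ κ * (η * P) := by
      simp only [hlj]; rw [hsum]; exact mul_le_mul_of_nonneg_left (herr i) hκ0.le
    have hEb : E (fun x => |lin (fun θ => b θ i) x| ^ p) ≤ Ce * (κ * (η * P)) := by
      rcases le_total p 2 with h2 | h2
      · exact (moment_small hm'0 hM hM0 hp0 h2 _ hQ).trans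
          (le_mul_of_one_le_left (by positivity) hCe1)
      · have hV : ∑ θ, m' θ * lin (fun θ => b θ i) (j θ) ^ 2 ≤ κ * ∑ θ, m θ * b θ i ^ 2 := by
          simp only [hlj]; rw [hsum]
        refine (moment_large hm'0 hM hM0 h2 _ hQ hV).trans ?_
        have hV0 : 0 ≤ ∑ θ, m θ * b θ i ^ 2 :=
          Finset.sum_nonneg fun θ _ => mul_nonneg (hm θ) (sq_nonneg _)
        rw [Real.mul_rpow hcs (by positivity), Real.mul_rpow hκ0.le hV0, hCe, mul_assoc (exp 1)]
        refine mul_le_mul_of_nonneg_left ?_ (exp_pos 1).le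
        have h3 : κ ^ (p / 2) ≤ κ := by
          have := Real.rpow_le_rpow_of_exponent_ge hκ0 hκ1 (by linarith : 1 ≤ p / 2)
          rwa [Real.rpow_one] at this
        have h4 : κ ^ (p / 2) * (∑ θ, m θ * b θ i ^ 2) ^ (p / 2) ≤ κ * (η * P) :=
          mul_le_mul h3 (hvar h2 i) (by positivity) hκ0.le
        have := mul_le_mul_of_nonneg_left h4 (by positivity : 0 ≤ cSm p ^ (p / 2))
        linarith
    have hEb' : C * E (fun x => |lin (fun θ => b θ i) x| ^ p) ≤ ε * (κ * P) := by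
      refine (mul_le_mul_of_nonneg_left hEb hC.le).trans (le_of_eq ?_)
      rw [hη]; field_simp
    have hU : E (fun x => |lin (fun θ => a θ i + b θ i) x| ^ p) ≤
        (1 + ε) * E (fun x => |lin (fun θ => a θ i) x| ^ p) +
          C * E (fun x => |lin (fun θ => b θ i) x| ^ p) := by
      have := hmono (fun x => |lin (fun θ => a θ i + b θ i) x| ^ p)
        ((1 + ε) • (fun x => |lin (fun θ => a θ i) x| ^ p) +
          C • (fun x => |lin (fun θ => b θ i) x| ^ p)) fun x => by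
          simp only [Pi.add_apply, Pi.smul_apply, smul_eq_mul, lin_add]
          exact hpert _ _
      rwa [map_add, map_smul, map_smul] at this
    have hL : E (fun x => |lin (fun θ => a θ i) x| ^ p) ≤
        (1 + ε) * E (fun x => |lin (fun θ => a θ i + b θ i) x| ^ p) +
          C * E (fun x => |lin (fun θ => b θ i) x| ^ p) := by
      have := hmono (fun x => |lin (fun θ => a θ i) x| ^ p)
        ((1 + ε) • (fun x => |lin (fun θ => a θ i + b θ i) x| ^ p) +
          C • (fun x => |lin (fun θ => b θ i) x| ^ p)) fun x => by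
          simp only [Pi.add_apply, Pi.smul_apply, smul_eq_mul, lin_add]
          have := hpert (lin (fun θ => a θ i) x + lin (fun θ => b θ i) x)
            (-lin (fun θ => b θ i) x)
          rwa [add_neg_cancel_right, abs_neg] at this
      rwa [map_add, map_smul, map_smul] at this
    set Y := E (fun x => |lin (fun θ => a θ i + b θ i) x| ^ p) with hY
    set A := E (fun x => |lin (fun θ => a θ i) x| ^ p) with hA
    set S := κ * P with hS
    have hS0 : 0 < S := by positivity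
    have hκS : ε * κ ≤ ε * S :=
      mul_le_mul_of_nonneg_left (le_mul_of_one_le_right hκ0.le hP) hε.le
    have hA1 : (1 - ε) * S ≤ A :=
      le_trans (mul_le_mul_of_nonneg_right (by linarith) hS0.le) hlo
    have hA2 : A ≤ (1 + ε) * S := by
      refine hhi.trans ?_
      rw [← mul_assoc]
      refine mul_le_mul_of_nonneg_right ?_ hS0.le
      set z := 2 ^ p * (κ * C0) with hz
      have hz0 : 0 ≤ z := by positivity
      have h5 := Real.abs_exp_sub_one_le (x := z) (by rw [abs_of_nonneg hz0]; linarith)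
      rw [abs_of_nonneg hz0] at h5
      have h6 : exp z ≤ 1 + 2 * z := by have := le_abs_self (exp z - 1); linarith
      have h7 := mul_le_mul_of_nonneg_right h6 (by linarith : 0 ≤ 1 + z)
      have h8 : z * z ≤ z := mul_le_of_le_one_right hz0 (by linarith)
      linarith
    have hY1 : (1 - 3 * ε) * S ≤ Y := by
      have h8 : (1 + ε) * ((1 - 3 * ε) * S) ≤ (1 + ε) * Y := by
        have : 0 ≤ ε ^ 2 * S := by positivity
        linarith
      exact le_of_mul_le_mul_left h8 (by linarith)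
    have hY2 : Y ≤ (1 + 4 * ε) * S := by
      have h8 := mul_le_mul_of_nonneg_left hA2 (by linarith : 0 ≤ 1 + ε)
      have h9 : ε * ε * S ≤ ε * S :=
        mul_le_mul_of_nonneg_right (mul_le_of_le_one_right hε.le hε1) hS0.le
      linarith
    simp only [lin_apply] at hx1 hx2
    constructor
    · refine le_trans ?_ hx1
      have := mul_le_mul_of_nonneg_left (by linarith : (1 - 5 * ε) * S ≤ Y - 2 * (ε * κ)) hd0'.le
      linarith
    · refine hx2.trans ?_
      have := mul_le_mul_of_nonneg_left (by linarith : Y + ε * κ ≤ (1 + 5 * ε) * S) hd0'.le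
      linarith

end Crest.Agent.R232
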