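import Crest.Agent.R232.Localize

/-!
A projection onto gradients with uniformly small row sums and a prescribed `L²` bound
(minimax over electrical projections).
-/

set_option autoImplicit false
set_option linter.unusedSectionVars false
open Finset Filter Topology

namespace Crest.Agent.R232

theorem minimax {I V : Type*} [Fintype I] [DecidableEq I] [AddCommGroup V] [Module ℝ V]
    (C : Set V) (hC : Convex ℝ C) (hne : C.Nonempty) (F : I → V → ℝ)
    (hF : ∀ i, ConvexOn ℝ C (F i))
    (h : ∀ l : I → ℝ, (∀ i, 0 ≤ l i) → ∑ i, l i = 1 → ∃ v ∈ C, ∑ i, l i * F i v ≤ 1) :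
    ∃ v ∈ C, ∀ i, F i v ≤ 2 := by
  by_contra hcon
  set s : Set (I → ℝ) := {y | ∀ i, y i < 2} with hs
  set t : Set (I → ℝ) := {y | ∃ v ∈ C, ∀ i, F i v ≤ y i} with ht
  have hs1 : Convex ℝ s := by
    intro x hx y hy a b ha hb hab i
    simp only [Pi.add_apply, Pi.smul_apply, smul_eq_mul]
    have h1 := hx i
    have h2 := hy i
    rcases ha.eq_or_lt with rfl | ha'
    · simp only [zero_add] at hab; subst hab; simpa using h2
    · nlinarith
  have hs2 : IsOpen s := by
    have : s = ⋂ i, {y : I → ℝ | y i < 2} := by ext y; simp [hs]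
    rw [this]
    exact isOpen_iInter_of_finite fun i => isOpen_lt (continuous_apply i) continuous_const
  have ht1 : Convex ℝ t := by
    rintro x ⟨v, hv, hx⟩ y ⟨v', hv', hy⟩ a b ha hb hab
    refine ⟨a • v + b • v', hC hv hv' ha hb hab, fun i => ?_⟩
    have := (hF i).2 hv hv' ha hb hab
    simp only [Pi.add_apply, Pi.smul_apply, smul_eq_mul] at this ⊢
    have h1 := mul_le_mul_of_nonneg_left (hx i) ha
    have h2 := mul_le_mul_of_nonneg_left (hy i) hb
    linarith
  have hd : Disjoint s t := by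
    rw [Set.disjoint_left]
    rintro y hy ⟨v, hv, hy'⟩
    exact hcon ⟨v, hv, fun i => (hy' i).trans (hy i).le⟩
  obtain ⟨f, u, hf1, hf2⟩ := geometric_hahn_banach_open hs1 hs2 ht1 hd
  set l : I → ℝ := fun i => f (Pi.single i 1) with hl
  have hf : ∀ y : I → ℝ, f y = ∑ i, l i * y i := by
    intro y
    conv_lhs => rw [← Finset.univ_sum_single y]
    rw [map_sum]
    refine Finset.sum_congr rfl fun i _ => ?_
    have : (Pi.single i (y i) : I → ℝ) = y i • (Pi.single i 1 : I → ℝ) := by
      rw [← Pi.single_smul]; simp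
    rw [this, map_smul, smul_eq_mul, mul_comm]
  have hu : 0 < u := by
    have := hf1 0 (fun i => by simp)
    simpa using this
  have hl0 : ∀ i, 0 ≤ l i := by
    intro i
    by_contra hneg
    push Not at hneg
    have hmem : (u / l i) • (Pi.single i 1 : I → ℝ) ∈ s := by
      intro j
      have : u / l i < 0 := div_neg_of_pos_of_neg hu hneg
      by_cases hj : j = i
      · subst hj; simp; linarith
      · simp [Pi.single_eq_of_ne hj]
    have := hf1 _ hmem
    rw [map_smul, smul_eq_mul] at this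
    change u / l i * l i < u at this
    rw [div_mul_cancel₀ _ hneg.ne] at this
    exact lt_irrefl _ this
  have hsum : 0 < ∑ i, l i := by
    obtain ⟨v, hv⟩ := hne
    by_contra hle
    have h0 : ∑ i, l i = 0 := le_antisymm (not_lt.1 hle) (Finset.sum_nonneg fun i _ => hl0 i)
    have h1 := (Finset.sum_eq_zero_iff_of_nonneg fun i _ => hl0 i).1 h0
    have h2 := hf2 (fun i => F i v) ⟨v, hv, fun i => le_rfl⟩
    rw [hf, Finset.sum_eq_zero fun i hi => by rw [h1 i hi, zero_mul]] at h2
    linarith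
  obtain ⟨v, hv, hv2⟩ := h (fun i => l i / ∑ i, l i) (fun i => div_nonneg (hl0 i) hsum.le)
    (by rw [← Finset.sum_div, div_self hsum.ne'])
  have h2 := hf2 (fun i => F i v) ⟨v, hv, fun i => le_rfl⟩
  have h3 := hf1 (fun _ => 3 / 2) (fun i => by norm_num)
  rw [hf] at h2 h3
  rw [← Finset.sum_mul] at h3
  have h4 : ∑ i, l i / (∑ i, l i) * F i v = (∑ i, l i * F i v) / ∑ i, l i := by
    rw [Finset.sum_div]; exact Finset.sum_congr rfl fun i _ => by ring
  rw [h4, div_le_one hsum] at hv2
  linarith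

variable {X : Type*} [Fintype X] [DecidableEq X]

lemma exists_potential (g w : X × X → ℝ) (hw : ∀ e, 0 ≤ w e) (f : X × X) :
    ∃ φ : X → ℝ, ∀ ψ, dir g w φ ψ = w f * grad g ψ f := by
  let T : (X → ℝ) →ₗ[ℝ] EuclideanSpace ℝ (X × X) :=
    { toFun := fun φ => WithLp.toLp 2 fun e => √(w e) * grad g φ e
      map_add' := fun φ ψ => by
        ext e; simp [grad_add, mul_add]
      map_smul' := fun c φ => by
        ext e; simp [grad_smul]; ring }
  obtain ⟨y, ⟨φ, rfl⟩, z, hz, hv⟩ := (LinearMap.range T).exists_add_mem_mem_orthogonal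
    (EuclideanSpace.single f (√(w f)))
  refine ⟨φ, fun ψ => ?_⟩
  have h1 : inner ℝ (T ψ) z = 0 := hz _ ⟨ψ, rfl⟩
  have h2 : inner ℝ (T ψ) (EuclideanSpace.single f (√(w f))) = inner ℝ (T ψ) (T φ) := by
    rw [hv, inner_add_right, h1, add_zero]
  rw [EuclideanSpace.inner_single_right, PiLp.inner_apply] at h2
  simp only [T, LinearMap.coe_mk, AddHom.coe_mk, conj_trivial, RCLike.inner_apply] at h2
  have h3 : √(w f) * (√(w f) * grad g ψ f) = w f * grad g ψ f := by
    rw [← mul_assoc, Real.mul_self_sqrt (hw f)]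
  rw [← h3, h2]
  unfold dir
  refine Finset.sum_congr rfl fun e _ => ?_
  have := Real.mul_self_sqrt (hw e)
  linear_combination (-(grad g φ e * grad g ψ e)) * this

lemma dir_sum_left (g w : X × X → ℝ) (Φ : X × X → X → ℝ) (a : X × X → ℝ) (ψ : X → ℝ) :
    dir g w (∑ f, a f • Φ f) ψ = ∑ f, a f * dir g w (Φ f) ψ := by
  unfold dir
  simp only [grad_sum, grad_smul, Finset.sum_mul, Finset.mul_sum]
  rw [Finset.sum_comm]
  exact Finset.sum_congr rfl fun f _ => Finset.sum_congr rfl fun e _ => by ring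

lemma grad_comb (g : X × X → ℝ) (Φ : X × X → X → ℝ) (a : X × X → ℝ) (e : X × X) :
    grad g (∑ f, a f • Φ f) e = ∑ f, a f * grad g (Φ f) e := by
  simp only [grad_sum, grad_smul]

lemma proj_contract (g w : X × X → ℝ) (hw : ∀ e, 0 ≤ w e) (Φ : X × X → X → ℝ)
    (hΦ : ∀ f ψ, dir g w (Φ f) ψ = w f * grad g ψ f) (a : X × X → ℝ) :
    ∑ e, w e * (∑ f, a f * grad g (Φ f) e) ^ 2 ≤ ∑ e, w e * a e ^ 2 := by
  set ψ := ∑ f, a f • Φ f with hψ
  have h1 : dir g w ψ ψ = ∑ f, a f * (w f * grad g ψ f) := by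
    conv_lhs => rw [hψ, dir_sum_left]
    exact Finset.sum_congr rfl fun f _ => by rw [hΦ]
  have h2 : dir g w ψ ψ = ∑ e, w e * (grad g ψ e) ^ 2 := by
    unfold dir; exact Finset.sum_congr rfl fun e _ => by ring
  have h3 : ∑ f, a f * (w f * grad g ψ f) ≤
      ∑ e, (1 / 2 * (w e * a e ^ 2) + 1 / 2 * (w e * (grad g ψ e) ^ 2)) := by
    refine Finset.sum_le_sum fun e _ => ?_
    have := mul_nonneg (hw e) (sq_nonneg (a e - grad g ψ e))
    nlinarith
  rw [Finset.sum_add_distrib, ← Finset.mul_sum, ← Finset.mul_sum] at h3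
  simp only [← grad_comb, ← hψ]
  linarith

lemma proj_id (g w : X × X → ℝ) (hw : ∀ e, 0 < w e) (Φ : X × X → X → ℝ)
    (hΦ : ∀ f ψ, dir g w (Φ f) ψ = w f * grad g ψ f) (φ : X → ℝ) (e : X × X) :
    ∑ f, grad g φ f * grad g (Φ f) e = grad g φ e := by
  set ψ := ∑ f, grad g φ f • Φ f with hψ
  have h1 : dir g w ψ (ψ - φ) = dir g w φ (ψ - φ) := by
    conv_lhs => rw [hψ, dir_sum_left]
    unfold dir
    refine Finset.sum_congr rfl fun f _ => ?_
    have := hΦ f (ψ - φ)
    unfold dir at this
    rw [← hψ, this]; ring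
  have h2 : ∑ e, w e * (grad g ψ e - grad g φ e) ^ 2 = 0 := by
    have : dir g w ψ (ψ - φ) - dir g w φ (ψ - φ) = 0 := by rw [h1, sub_self]
    unfold dir at this
    rw [← Finset.sum_sub_distrib] at this
    rw [← this]
    exact Finset.sum_congr rfl fun e _ => by rw [grad_sub]; ring
  have h3 := (Finset.sum_eq_zero_iff_of_nonneg fun e _ =>
    mul_nonneg (hw e).le (sq_nonneg _)).1 h2 e (Finset.mem_univ e)
  have h4 : grad g ψ e - grad g φ e = 0 :=
    pow_eq_zero_iff (two_ne_zero) |>.1 ((mul_eq_zero.1 h3).resolve_left (hw e).ne')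
  rw [← grad_comb, ← hψ]; linarith

/-- The projection operator used in the construction. -/
theorem exists_operator [Nonempty X] (g : X × X → ℝ) {H : Type*} (Hs : Finset H) (c : H → ℝ)
    (hc : ∀ h ∈ Hs, 0 ≤ c h) (a : H → X × X → ℝ) {A : ℝ} (hA : 0 < A)
    (ha : ∀ f, ∑ h ∈ Hs, c h * a h f ^ 2 ≤ A) :
    ∃ Φ : X × X → X → ℝ,
      (∀ φ e, ∑ f, grad g φ f * grad g (Φ f) e = grad g φ e) ∧
      (∀ e, ∑ f, |grad g (Φ f) e| ≤ 64 * Real.log (2 * Fintype.card X)) ∧
      ∀ e, ∑ h ∈ Hs, c h * (∑ f, a h f * grad g (Φ f) e) ^ 2 ≤ 8 * A := by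
  set n : ℝ := (Fintype.card X : ℝ) with hn
  have hn1 : 1 ≤ n := by rw [hn]; exact_mod_cast Fintype.card_pos
  set L := Real.log (2 * n) with hL
  have hL0 : 0 < L := Real.log_pos (by linarith)
  set C : Set (X × X → X → ℝ) :=
    {Φ | ∀ φ e, ∑ f, grad g φ f * grad g (Φ f) e = grad g φ e} with hC
  have hlin : ∀ (Φ Ψ : X × X → X → ℝ) (s t : ℝ) (f e : X × X),
      grad g ((s • Φ + t • Ψ) f) e = s * grad g (Φ f) e + t * grad g (Ψ f) e := by
    intro Φ Ψ s t f e
    rw [Pi.add_apply, Pi.smul_apply, Pi.smul_apply, grad_add, grad_smul, grad_smul]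
  have hCc : Convex ℝ C := by
    intro Φ hΦ Ψ hΨ s t _ _ hst φ e
    simp only [hlin, mul_add, Finset.sum_add_distrib]
    have h1 : ∑ f, grad g φ f * (s * grad g (Φ f) e) = s * grad g φ e := by
      rw [← hΦ φ e, Finset.mul_sum]; exact Finset.sum_congr rfl fun f _ => by ring
    have h2 : ∑ f, grad g φ f * (t * grad g (Ψ f) e) = t * grad g φ e := by
      rw [← hΨ φ e, Finset.mul_sum]; exact Finset.sum_congr rfl fun f _ => by ring
    rw [h1, h2, ← add_mul, hst, one_mul]
  have hCne : C.Nonempty := by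
    choose Φ hΦ using exists_potential g (fun _ => 1) (fun _ => zero_le_one)
    exact ⟨Φ, proj_id g (fun _ => 1) (fun _ => one_pos) Φ hΦ⟩
  let F : (X × X) ⊕ (X × X) → (X × X → X → ℝ) → ℝ := fun i Φ =>
    Sum.elim (fun e => (∑ f, |grad g (Φ f) e|) / (32 * L))
      (fun e => (∑ h ∈ Hs, c h * (∑ f, a h f * grad g (Φ f) e) ^ 2) / (4 * A)) i
  have hF : ∀ i, ConvexOn ℝ C (F i) := by
    intro i
    refine ⟨hCc, fun Φ _ Ψ _ s t hs ht hst => ?_⟩
    rcases i with e | e
    · simp only [F, Sum.elim_inl, smul_eq_mul, hlin]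
      rw [← mul_div_assoc, ← mul_div_assoc, ← add_div]
      refine div_le_div_of_nonneg_right ?_ (by positivity)
      rw [Finset.mul_sum, Finset.mul_sum, ← Finset.sum_add_distrib]
      refine Finset.sum_le_sum fun f _ => (abs_add_le _ _).trans (le_of_eq ?_)
      rw [abs_mul, abs_mul, abs_of_nonneg hs, abs_of_nonneg ht]
    · simp only [F, Sum.elim_inr, smul_eq_mul, hlin]
      rw [← mul_div_assoc, ← mul_div_assoc, ← add_div]
      refine div_le_div_of_nonneg_right ?_ (by positivity)
      rw [Finset.mul_sum, Finset.mul_sum, ← Finset.sum_add_distrib]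
      refine Finset.sum_le_sum fun h hh => ?_
      have h1 : ∑ f, a h f * (s * grad g (Φ f) e + t * grad g (Ψ f) e) =
          s * ∑ f, a h f * grad g (Φ f) e + t * ∑ f, a h f * grad g (Ψ f) e := by
        rw [Finset.mul_sum, Finset.mul_sum, ← Finset.sum_add_distrib]
        exact Finset.sum_congr rfl fun f _ => by ring
      rw [h1]
      set x := ∑ f, a h f * grad g (Φ f) e
      set y := ∑ f, a h f * grad g (Ψ f) e
      have h2 : (s * x + t * y) ^ 2 ≤ s * x ^ 2 + t * y ^ 2 := by
        have : t = 1 - s := by linarith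
        subst this
        nlinarith [mul_nonneg (mul_nonneg hs ht) (sq_nonneg (x - y))]
      have := mul_le_mul_of_nonneg_left h2 (hc h hh)
      linarith
  obtain ⟨Φ, hΦC, hΦ⟩ := minimax C hCc hCne F hF (by
    intro l hl hl1
    set w : X × X → ℝ := fun e => l (Sum.inl e) + l (Sum.inr e) + 1 / n ^ 2 with hw
    have hn2 : 0 < 1 / n ^ 2 := by positivity
    have hwpos : ∀ e, 0 < w e := fun e => by
      have := hl (Sum.inl e); have := hl (Sum.inr e); simp only [hw]; linarith
    have hwsum : ∑ e, w e = 2 := by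
      rw [Fintype.sum_sum_type] at hl1
      simp only [hw, Finset.sum_add_distrib, hl1, Finset.sum_const, Finset.card_univ,
        Fintype.card_prod, nsmul_eq_mul, Nat.cast_mul, ← hn]
      field_simp; ring
    have hπ : ∀ x, 2 / n ≤ pim w x := by
      intro x
      have : ∑ _y : X, (2 / n ^ 2) ≤ pim w x := by
        refine Finset.sum_le_sum fun y _ => ?_
        have := hl (Sum.inl (x, y)); have := hl (Sum.inr (x, y))
        have := hl (Sum.inl (y, x)); have := hl (Sum.inr (y, x))
        simp only [hw]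
        have : 2 / n ^ 2 = 1 / n ^ 2 + 1 / n ^ 2 := by ring
        linarith
      refine le_trans (le_of_eq ?_) this
      simp only [Finset.sum_const, Finset.card_univ, nsmul_eq_mul, ← hn]
      field_simp
    have hπ0 : ∀ x, 0 < pim w x := fun x => lt_of_lt_of_le (by positivity) (hπ x)
    have hS : ∑ x, pim w x = 4 := by
      unfold pim
      rw [sym_sum w w, Finset.sum_add_distrib, hwsum]; norm_num
    choose Φ hΦ using exists_potential g w (fun e => (hwpos e).le)
    refine ⟨Φ, proj_id g w hwpos Φ hΦ, ?_⟩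
    have h1 := localization g w (fun e => (hwpos e).le) hπ0 Φ hΦ (by norm_num) hS
    have h2 : ∑ z, pim w z * Real.log (4 / pim w z) ≤ 4 * L := by
      rw [← hS, Finset.sum_mul, hS]
      refine Finset.sum_le_sum fun z _ => mul_le_mul_of_nonneg_left ?_ (hπ0 z).le
      refine Real.log_le_log (div_pos (by norm_num) (hπ0 z)) ?_
      rw [div_le_iff₀ (hπ0 z)]
      have := hπ z
      rw [div_le_iff₀ (by positivity)] at this
      linarith
    have h3 : ∑ e, l (Sum.inl e) * F (Sum.inl e) Φ ≤ 1 / 2 := by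
      have : ∑ e, l (Sum.inl e) * F (Sum.inl e) Φ ≤
          (∑ e, ∑ f, w e * |grad g (Φ f) e|) / (32 * L) := by
        rw [Finset.sum_div]
        refine Finset.sum_le_sum fun e _ => ?_
        simp only [F, Sum.elim_inl]
        rw [← mul_div_assoc, ← Finset.mul_sum]
        refine div_le_div_of_nonneg_right (mul_le_mul_of_nonneg_right ?_
          (Finset.sum_nonneg fun f _ => abs_nonneg _)) (by positivity)
        have := hl (Sum.inr e); simp only [hw]; linarith
      refine this.trans ?_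
      rw [div_le_iff₀ (by positivity)]; linarith
    have h4 : ∑ e, l (Sum.inr e) * F (Sum.inr e) Φ ≤ 1 / 2 := by
      have h5 : ∑ e, l (Sum.inr e) * F (Sum.inr e) Φ ≤
          (∑ e, w e * ∑ h ∈ Hs, c h * (∑ f, a h f * grad g (Φ f) e) ^ 2) / (4 * A) := by
        rw [Finset.sum_div]
        refine Finset.sum_le_sum fun e _ => ?_
        simp only [F, Sum.elim_inr]
        rw [← mul_div_assoc]
        refine div_le_div_of_nonneg_right (mul_le_mul_of_nonneg_right ?_
          (Finset.sum_nonneg fun h hh => mul_nonneg (hc h hh) (sq_nonneg _))) (by positivity)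
        have := hl (Sum.inl e); simp only [hw]; linarith
      have h6 : ∑ e, w e * ∑ h ∈ Hs, c h * (∑ f, a h f * grad g (Φ f) e) ^ 2 ≤ 2 * A := by
        calc ∑ e, w e * ∑ h ∈ Hs, c h * (∑ f, a h f * grad g (Φ f) e) ^ 2
            = ∑ h ∈ Hs, c h * ∑ e, w e * (∑ f, a h f * grad g (Φ f) e) ^ 2 := by
              simp only [Finset.mul_sum]
              rw [Finset.sum_comm]
              exact Finset.sum_congr rfl fun h _ => Finset.sum_congr rfl fun e _ => by ring
          _ ≤ ∑ h ∈ Hs, c h * ∑ e, w e * a h e ^ 2 :=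
              Finset.sum_le_sum fun h hh => mul_le_mul_of_nonneg_left
                (proj_contract g w (fun e => (hwpos e).le) Φ hΦ (a h)) (hc h hh)
          _ = ∑ e, w e * ∑ h ∈ Hs, c h * a h e ^ 2 := by
              simp only [Finset.mul_sum]
              rw [Finset.sum_comm]
              exact Finset.sum_congr rfl fun h _ => Finset.sum_congr rfl fun e _ => by ring
          _ ≤ ∑ e, w e * A :=
              Finset.sum_le_sum fun e _ => mul_le_mul_of_nonneg_left (ha e) (hwpos e).le
          _ = 2 * A := by rw [← Finset.sum_mul, hwsum]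
      refine h5.trans ?_
      rw [div_le_iff₀ (by positivity)]; linarith
    rw [Fintype.sum_sum_type]; linarith)
  refine ⟨Φ, hΦC, fun e => ?_, fun e => ?_⟩
  · have := hΦ (Sum.inl e)
    simp only [F, Sum.elim_inl] at this
    rw [div_le_iff₀ (by positivity)] at this
    linarith
  · have := hΦ (Sum.inr e)
    simp only [F, Sum.elim_inr] at this
    rw [div_le_iff₀ (by positivity)] at this
    linarith

end Crest.Agent.R232
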