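import Mathlib
import Crest.Agent.R232.Operator
import Crest.Agent.R232.Levels
import Crest.Agent.R232.Merge

/-! The finite dimension reduction theorem. -/

set_option autoImplicit false
open Finset Real

namespace Crest.Agent.R232

section Kernel
variable {I Ω : Type*} [Fintype I] [Fintype Ω]

/-- action of a kernel -/
def pr (K : I → I → ℝ) (a : I → ℝ) (e : I) : ℝ := ∑ f, a f * K f e

/-- error of a sharp cut -/
noncomputable def err (K : I → I → ℝ) (s : I → ℝ) (e : I) (l : ℤ) : ℝ :=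
  pr K (fun f => hi l (s f)) e - hi l (s e)

/-- error of a band -/
noncomputable def bandErr (K : I → I → ℝ) (J : ℕ) (j : ℤ) (s : I → ℝ) (e : I) : ℝ :=
  pr K (fun f => al J j (s f)) e - al J j (s e)

lemma pr_mav (K : I → I → ℝ) (J : ℕ) (k : ℤ) (s : I → ℝ) (e : I) :
    pr K (fun f => mav J (fun l => hi l (s f)) k) e - mav J (fun l => hi l (s e)) k =
      mav J (err K s e) k := by
  simp only [pr, mav, err, Finset.sum_sub_distrib, sub_div]
  congr 1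
  rw [Finset.sum_comm, Finset.sum_div]
  refine Finset.sum_congr rfl fun f _ => ?_
  rw [← Finset.sum_mul]; ring

lemma bandErr_eq (K : I → I → ℝ) (J : ℕ) (j : ℤ) (s : I → ℝ) (e : I) :
    bandErr K J j s e = mav J (err K s e) (j + 0) - mav J (err K s e) (j + 2 * J) := by
  rw [add_zero, ← pr_mav, ← pr_mav]
  simp only [bandErr, al, pr, sub_mul, Finset.sum_sub_distrib]
  ring

lemma err_lo (K : I → I → ℝ) (s : I → ℝ) (e : I) (hid : pr K s e = s e) (l : ℤ) :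
    err K s e l = -(pr K (fun f => lo l (s f)) e - lo l (s e)) := by
  simp only [err, hi_eq, pr, sub_mul, Finset.sum_sub_distrib] at hid ⊢
  rw [hid]; ring

lemma abs_pr_le (K : I → I → ℝ) (a : I → ℝ) (e : I) {c ρ : ℝ} (hc : 0 ≤ c) (ha : ∀ f, |a f| ≤ c)
    (hK : ∑ f, |K f e| ≤ ρ) : |pr K a e| ≤ ρ * c := by
  refine (Finset.abs_sum_le_sum_abs _ _).trans ?_
  refine le_trans ?_ (mul_le_mul_of_nonneg_right hK hc)
  rw [Finset.sum_mul]
  refine Finset.sum_le_sum fun f _ => ?_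
  rw [abs_mul, mul_comm]
  exact mul_le_mul_of_nonneg_left (ha f) (abs_nonneg _)

lemma sum_abs_pr_le (K : I → I → ℝ) (L : Finset ℤ) (c : ℤ → ℝ) (hc : ∀ l, 0 ≤ c l)
    (a : Ω → ℤ → I → ℝ) (e : I) {A ρ : ℝ} (hA : 0 ≤ A)
    (ha : ∀ f, ∑ ω, ∑ l ∈ L, c l * |a ω l f| ≤ A) (hK : ∑ f, |K f e| ≤ ρ) :
    ∑ ω, ∑ l ∈ L, c l * |pr K (a ω l) e| ≤ ρ * A := by
  have h1 : ∑ ω, ∑ l ∈ L, c l * |pr K (a ω l) e| ≤
      ∑ ω, ∑ l ∈ L, ∑ f, |K f e| * (c l * |a ω l f|) := by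
    refine Finset.sum_le_sum fun ω _ => Finset.sum_le_sum fun l _ => ?_
    refine (mul_le_mul_of_nonneg_left (Finset.abs_sum_le_sum_abs _ _) (hc l)).trans (le_of_eq ?_)
    rw [Finset.mul_sum]
    exact Finset.sum_congr rfl fun f _ => by rw [abs_mul]; ring
  have h2 : ∑ ω, ∑ l ∈ L, ∑ f, |K f e| * (c l * |a ω l f|) =
      ∑ f, |K f e| * ∑ ω, ∑ l ∈ L, c l * |a ω l f| := by
    simp only [Finset.mul_sum]
    rw [Finset.sum_comm (s := univ) (t := univ)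
      (f := fun f ω => ∑ l ∈ L, |K f e| * (c l * |a ω l f|))]
    exact Finset.sum_congr rfl fun ω _ => Finset.sum_comm
  refine h1.trans (h2.le.trans (le_trans ?_ (mul_le_mul_of_nonneg_right hK hA)))
  rw [Finset.sum_mul]
  exact Finset.sum_le_sum fun f _ => mul_le_mul_of_nonneg_left (ha f) (abs_nonneg _)

lemma sum_sq_sub_le (L : Finset ℤ) (c : ℤ → ℝ) (hc : ∀ l, 0 ≤ c l) (x y : Ω → ℤ → ℝ) {A : ℝ}
    (hx : ∑ ω, ∑ l ∈ L, c l * x ω l ^ 2 ≤ 8 * A) (hy : ∑ ω, ∑ l ∈ L, c l * y ω l ^ 2 ≤ A) :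
    ∑ ω, ∑ l ∈ L, c l * (x ω l - y ω l) ^ 2 ≤ 18 * A := by
  have : ∑ ω, ∑ l ∈ L, c l * (x ω l - y ω l) ^ 2 ≤
      ∑ ω, ∑ l ∈ L, (2 * (c l * x ω l ^ 2) + 2 * (c l * y ω l ^ 2)) := by
    refine Finset.sum_le_sum fun ω _ => Finset.sum_le_sum fun l _ => ?_
    have := mul_nonneg (hc l) (sq_nonneg (x ω l + y ω l))
    linarith
  simp only [Finset.sum_add_distrib, ← Finset.mul_sum] at this
  linarith

lemma sum_le_of_norm {p C : ℝ} (hC : 0 ≤ C) (s : Ω → ℝ) (hs : ∑ ω, |s ω| ^ p ≤ 1) (F : Ω → ℝ)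
    (hF : ∀ ω, F ω ≤ C * |s ω| ^ p) : ∑ ω, F ω ≤ C := by
  refine (Finset.sum_le_sum fun ω _ => hF ω).trans ?_
  rw [← Finset.mul_sum]
  exact mul_le_of_le_one_right hC hs

/-- the `ℓ^p` error of sharp cuts, `p < 2` -/
lemma err_small {p ρ A : ℝ} (hp1 : 1 < p) (hp2 : p < 2) (hρ : 0 ≤ ρ) (K : I → I → ℝ)
    (s : Ω → I → ℝ) (hs : ∀ f, ∑ ω, |s ω f| ^ p ≤ 1) (e : I) (hK : ∑ f, |K f e| ≤ ρ)
    (L : Finset ℤ) (hW : ∑ ω, ∑ l ∈ L, ((2 : ℝ) ^ l) ^ (p - 2) * err K (s ω) e l ^ 2 ≤ A) :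
    ∑ ω, ∑ l ∈ L, |err K (s ω) e l| ^ p ≤ (cG (p - 1) + A) * (ρ + 1) ^ (2 - p) := by
  have hc := cG_pos (by linarith : 0 < p - 1)
  have hρ1 : 0 < ρ + 1 := by linarith
  have h0 : ∀ f, ∑ ω, ∑ l ∈ L, ((2 : ℝ) ^ l) ^ (p - 1) * |hi l (s ω f)| ≤ cG (p - 1) := fun f =>
    sum_le_of_norm hc.le (fun ω => s ω f) (hs f) _ fun ω => sum_hi_abs hp1 _ L
  have h1 := sum_abs_pr_le K L (fun l => ((2 : ℝ) ^ l) ^ (p - 1)) (fun l => by positivity)
    (fun ω l f => hi l (s ω f)) e hc.le h0 hK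
  have h2 : ∑ ω, ∑ l ∈ L, ((2 : ℝ) ^ l) ^ (p - 1) * |err K (s ω) e l| ≤ (ρ + 1) * cG (p - 1) := by
    have : ∑ ω, ∑ l ∈ L, ((2 : ℝ) ^ l) ^ (p - 1) * |err K (s ω) e l| ≤
        ∑ ω, ∑ l ∈ L, (((2 : ℝ) ^ l) ^ (p - 1) * |pr K (fun f => hi l (s ω f)) e| +
          ((2 : ℝ) ^ l) ^ (p - 1) * |hi l (s ω e)|) := by
      refine Finset.sum_le_sum fun ω _ => Finset.sum_le_sum fun l _ => ?_
      rw [← mul_add]
      exact mul_le_mul_of_nonneg_left (abs_sub _ _) (by positivity)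
    simp only [Finset.sum_add_distrib] at this
    have := h0 e
    linarith
  have h3 : ∑ ω, ∑ l ∈ L, |err K (s ω) e l| ^ p ≤
      ∑ ω, ∑ l ∈ L, ((ρ + 1) ^ (1 - p) * (((2 : ℝ) ^ l) ^ (p - 1) * |err K (s ω) e l|) +
        (ρ + 1) ^ (2 - p) * (((2 : ℝ) ^ l) ^ (p - 2) * err K (s ω) e l ^ 2)) := by
    refine Finset.sum_le_sum fun ω _ => Finset.sum_le_sum fun l _ => ?_
    have t0 := two_zpow_pos l
    refine (interp_small (lam := 2 ^ l / (ρ + 1)) hp1.le hp2.le (by positivity) _).trans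
      (le_of_eq ?_)
    rw [Real.div_rpow t0.le hρ1.le, Real.div_rpow t0.le hρ1.le, ← neg_sub p 1, ← neg_sub p 2,
      Real.rpow_neg hρ1.le, Real.rpow_neg hρ1.le]
    ring
  simp only [Finset.sum_add_distrib, ← Finset.mul_sum] at h3
  have h4 := mul_le_mul_of_nonneg_left h2 (by positivity : 0 ≤ (ρ + 1) ^ (1 - p))
  have h5 := mul_le_mul_of_nonneg_left hW (by positivity : 0 ≤ (ρ + 1) ^ (2 - p))
  have e1 : (ρ + 1) ^ (1 - p) * (ρ + 1) = (ρ + 1) ^ (2 - p) := by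
    rw [← Real.rpow_add_one hρ1.ne']; congr 1; ring
  rw [← mul_assoc, e1] at h4
  linarith

lemma band_rpow_le {p : ℝ} (hp : 0 ≤ p) (K : I → I → ℝ) (s : Ω → I → ℝ) (e : I) (J : ℕ)
    (Js : Finset ℤ) {A : ℝ}
    (h : ∀ c : ℤ, 0 ≤ c → c ≤ 2 * J →
      ∑ ω, ∑ j ∈ Js, |mav J (err K (s ω) e) (j + c)| ^ p ≤ A) :
    ∑ ω, ∑ j ∈ Js, |bandErr K J j (s ω) e| ^ p ≤ 2 ^ p * (2 * A) := by
  have : ∑ ω, ∑ j ∈ Js, |bandErr K J j (s ω) e| ^ p ≤
      ∑ ω, ∑ j ∈ Js, 2 ^ p * (|mav J (err K (s ω) e) (j + 0)| ^ p +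
        |mav J (err K (s ω) e) (j + 2 * J)| ^ p) := by
    refine Finset.sum_le_sum fun ω _ => Finset.sum_le_sum fun j _ => ?_
    rw [bandErr_eq, sub_eq_add_neg]
    have := abs_add_rpow_le_crude hp (mav J (err K (s ω) e) (j + 0))
      (-mav J (err K (s ω) e) (j + 2 * J))
    rwa [abs_neg] at this
  simp only [← Finset.mul_sum, Finset.sum_add_distrib] at this
  refine this.trans (mul_le_mul_of_nonneg_left ?_ (by positivity))
  have := h 0 le_rfl (by omega)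
  have := h (2 * J) (by omega) le_rfl
  linarith

lemma band_sq_le (r : ℝ) (K : I → I → ℝ) (s : Ω → I → ℝ) (e : I) (J : ℕ)
    (Js : Finset ℤ) {A : ℝ}
    (h : ∀ c : ℤ, 0 ≤ c → c ≤ 2 * J →
      ∑ ω, ∑ j ∈ Js, ((2 : ℝ) ^ j) ^ r * mav J (err K (s ω) e) (j + c) ^ 2 ≤ A) :
    ∑ ω, ∑ j ∈ Js, ((2 : ℝ) ^ j) ^ r * bandErr K J j (s ω) e ^ 2 ≤ 4 * A := by
  have : ∑ ω, ∑ j ∈ Js, ((2 : ℝ) ^ j) ^ r * bandErr K J j (s ω) e ^ 2 ≤
      ∑ ω, ∑ j ∈ Js, 2 * (((2 : ℝ) ^ j) ^ r * mav J (err K (s ω) e) (j + 0) ^ 2 +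
        ((2 : ℝ) ^ j) ^ r * mav J (err K (s ω) e) (j + 2 * J) ^ 2) := by
    refine Finset.sum_le_sum fun ω _ => Finset.sum_le_sum fun j _ => ?_
    rw [bandErr_eq]
    have := mul_nonneg (by positivity : 0 ≤ ((2 : ℝ) ^ j) ^ r)
      (sq_nonneg (mav J (err K (s ω) e) (j + 0) + mav J (err K (s ω) e) (j + 2 * J)))
    linarith
  simp only [← Finset.mul_sum, Finset.sum_add_distrib] at this
  have := h 0 le_rfl (by omega)
  have := h (2 * J) (by omega) le_rfl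
  linarith

end Kernel

/-- the exponent -/
noncomputable def gam (p : ℝ) : ℝ := if p < 2 then 2 - p else 1 - 2 / p

lemma gam_pos {p : ℝ} (hp2 : p ≠ 2) : 0 < gam p := by
  unfold gam
  split_ifs with h
  · linarith
  · have h2 : 2 < p := lt_of_le_of_ne (not_lt.1 h) (Ne.symm hp2)
    have : 2 / p < 1 := (div_lt_one (by linarith)).2 h2
    linarith

theorem good_operator {p η : ℝ} (hp : 1 < p) (hp2 : p ≠ 2) (hη : 0 < η) :
    ∃ C1 : ℝ, 0 < C1 ∧ ∀ (X Ω : Type) [Fintype X] [DecidableEq X] [Nonempty X] [Fintype Ω]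
      (g : X × X → ℝ) (u : Ω → X → ℝ), (∀ e, ∑ ω, |grad g (u ω) e| ^ p ≤ 1) → ∀ J : ℕ,
      C1 * (64 * log (2 * Fintype.card X) + 1) ^ gam p ≤ J → ∀ Js : Finset ℤ,
      ∃ Φ : X × X → X → ℝ, (∀ e, ∑ f, |grad g (Φ f) e| ≤ 64 * log (2 * Fintype.card X)) ∧
        (∀ e, ∑ ω, ∑ j ∈ Js,
          |bandErr (fun f => grad g (Φ f)) J j (grad g (u ω)) e| ^ p ≤ η * J) ∧
        (2 ≤ p → ∀ e, (∑ ω, ∑ j ∈ Js, ((2 : ℝ) ^ j) ^ (p - 2) *
          bandErr (fun f => grad g (Φ f)) J j (grad g (u ω)) e ^ 2) ^ (p / 2) ≤ η * J) := by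
  have hp0 : 0 < p := by linarith
  have hγ := gam_pos hp2
  have hρ : ∀ (X : Type) [Fintype X] [Nonempty X], 0 ≤ 64 * log (2 * Fintype.card X) := by
    intro X _ _
    have : (1 : ℝ) ≤ Fintype.card X := by exact_mod_cast Fintype.card_pos
    have := Real.log_nonneg (by linarith : (1 : ℝ) ≤ 2 * Fintype.card X)
    linarith
  have hL : ∀ (J : ℕ) (Js : Finset ℤ) (c : ℤ), 0 ≤ c → c ≤ 2 * J → ∀ k ∈ Js, ∀ a ∈ Icc (1 : ℤ) J,
      k + c + a ∈ Js.biUnion (fun j => Icc j (j + 3 * J)) := by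
    intro J Js c h1 h2 k hk a ha
    rw [Finset.mem_Icc] at ha
    exact Finset.mem_biUnion.2 ⟨k, hk, Finset.mem_Icc.2 ⟨by omega, by omega⟩⟩
  rcases lt_or_gt_of_ne hp2 with h2 | h2
  · have hA := cG_pos (by linarith : 0 < 2 - p)
    have hA' := cG_pos (by linarith : 0 < p - 1)
    refine ⟨2 ^ p * (2 * (cG (p - 1) + 18 * cG (2 - p))) / η, by positivity, ?_⟩
    intro X Ω _ _ _ _ g u hs J hJ Js
    set ρ := 64 * log (2 * Fintype.card X) with hρdef
    have hρ0 : 0 ≤ ρ := hρ X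
    have hJ0 : 0 < J := by
      have : (0 : ℝ) < J := lt_of_lt_of_le (by positivity) hJ
      exact_mod_cast this
    set L := Js.biUnion (fun j => Icc j (j + 3 * J)) with hLdef
    have h0 : ∀ f, ∑ ω, ∑ l ∈ L, ((2 : ℝ) ^ l) ^ (p - 2) * lo l (grad g (u ω) f) ^ 2 ≤
        cG (2 - p) := fun f =>
      sum_le_of_norm hA.le (fun ω => grad g (u ω) f) (hs f) _ fun ω => sum_lo_sq hp0 h2 _ L
    obtain ⟨Φ, hid, hK, hW⟩ := exists_operator g ((univ : Finset Ω) ×ˢ L)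
      (fun h => ((2 : ℝ) ^ h.2) ^ (p - 2)) (fun h _ => by positivity)
      (fun h f => lo h.2 (grad g (u h.1) f)) hA (fun f => by
        rw [Finset.sum_product]; exact h0 f)
    refine ⟨Φ, hK, fun e => ?_, fun h => absurd h2 (not_lt.2 h)⟩
    have hW' := hW e
    rw [Finset.sum_product] at hW'
    have hW2 := sum_sq_sub_le L (fun l => ((2 : ℝ) ^ l) ^ (p - 2)) (fun l => by positivity)
      (fun ω l => pr (fun f => grad g (Φ f)) (fun f => lo l (grad g (u ω) f)) e)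
      (fun ω l => lo l (grad g (u ω) e)) hW' (h0 e)
    have hE := err_small hp h2 hρ0 (fun f => grad g (Φ f)) (fun ω => grad g (u ω)) hs e (hK e) L
      (A := 18 * cG (2 - p)) (by
        refine le_trans (le_of_eq ?_) hW2
        refine Finset.sum_congr rfl fun ω _ => Finset.sum_congr rfl fun l _ => ?_
        rw [err_lo _ _ _ (hid (u ω) e), neg_sq])
    refine (band_rpow_le hp0.le _ (fun ω => grad g (u ω)) e J Js
      (A := (cG (p - 1) + 18 * cG (2 - p)) * (ρ + 1) ^ (2 - p)) fun c h1 h3 => ?_).trans ?_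
    · exact (Finset.sum_le_sum fun ω _ =>
        sum_mav_rpow hJ0 hp.le _ c Js L (hL J Js c h1 h3)).trans hE
    · rw [gam, if_pos h2, div_mul_eq_mul_div, div_le_iff₀ hη] at hJ
      linarith
  · have hA := cG_pos (by linarith : 0 < p - 2)
    have hcW := cW_pos h2
    set C := 2 ^ p * (2 * (cW p * (18 * cG (p - 2)))) / η with hC
    have hC0 : 0 < C := by positivity
    refine ⟨C ^ (1 / p) + (4 * (18 * cG (p - 2))) ^ (p / 2) / η, by positivity, ?_⟩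
    intro X Ω _ _ _ _ g u hs J hJ Js
    set ρ := 64 * log (2 * Fintype.card X) with hρdef
    have hρ0 : 0 ≤ ρ := hρ X
    have hρ1 : 0 < ρ + 1 := by linarith
    have hJ0' : (0 : ℝ) < J := lt_of_lt_of_le (by positivity) hJ
    have hJ0 : 0 < J := by exact_mod_cast hJ0'
    have hone : 1 ≤ (ρ + 1) ^ gam p := Real.one_le_rpow (by linarith) hγ.le
    have hJ1 : C * (ρ + 1) ^ (p - 2) ≤ (J : ℝ) ^ p := by
      have a1 : C ^ (1 / p) * (ρ + 1) ^ gam p ≤ J := by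
        have : 0 ≤ (4 * (18 * cG (p - 2))) ^ (p / 2) / η * (ρ + 1) ^ gam p := by positivity
        linarith
      refine le_trans (le_of_eq ?_) (Real.rpow_le_rpow (by positivity) a1 hp0.le)
      rw [Real.mul_rpow (by positivity) (by positivity), ← Real.rpow_mul hC0.le,
        ← Real.rpow_mul hρ1.le, one_div_mul_cancel hp0.ne', Real.rpow_one, gam,
        if_neg (not_lt.2 h2.le)]
      congr 2; field_simp
    have hJ2 : (4 * (18 * cG (p - 2))) ^ (p / 2) ≤ η * J := by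
      have a1 : 0 ≤ C ^ (1 / p) * (ρ + 1) ^ gam p := by positivity
      have a2 := le_mul_of_one_le_right
        (by positivity : 0 ≤ (4 * (18 * cG (p - 2))) ^ (p / 2) / η) hone
      rw [← div_le_iff₀' hη]
      linarith
    set L := Js.biUnion (fun j => Icc j (j + 3 * J)) with hLdef
    have h0 : ∀ f, ∑ ω, ∑ l ∈ L, ((2 : ℝ) ^ l) ^ (p - 2) * hi l (grad g (u ω) f) ^ 2 ≤
        cG (p - 2) := fun f =>
      sum_le_of_norm hA.le (fun ω => grad g (u ω) f) (hs f) _ fun ω => sum_hi_sq h2 _ L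
    obtain ⟨Φ, hid, hK, hW⟩ := exists_operator g ((univ : Finset Ω) ×ˢ L)
      (fun h => ((2 : ℝ) ^ h.2) ^ (p - 2)) (fun h _ => by positivity)
      (fun h f => hi h.2 (grad g (u h.1) f)) hA (fun f => by
        rw [Finset.sum_product]; exact h0 f)
    have hW2 : ∀ e, ∑ ω, ∑ l ∈ L, ((2 : ℝ) ^ l) ^ (p - 2) *
        err (fun f => grad g (Φ f)) (grad g (u ω)) e l ^ 2 ≤ 18 * cG (p - 2) := by
      intro e
      have hW' := hW e
      rw [Finset.sum_product] at hW'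
      exact sum_sq_sub_le L (fun l => ((2 : ℝ) ^ l) ^ (p - 2)) (fun l => by positivity)
        (fun ω l => pr (fun f => grad g (Φ f)) (fun f => hi l (grad g (u ω) f)) e)
        (fun ω l => hi l (grad g (u ω) e)) hW' (h0 e)
    refine ⟨Φ, hK, fun e => ?_, fun _ e => ?_⟩
    · refine (band_rpow_le hp0.le _ (fun ω => grad g (u ω)) e J Js
        (A := cW p * (ρ + 1) ^ (p - 2) / J ^ p * J * (18 * cG (p - 2))) fun c h1 h3 => ?_).trans ?_
      · refine (Finset.sum_le_sum fun ω _ =>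
          sum_mav_lac hJ0 h2 hρ1 _ (fun l => ?_) c Js L (hL J Js c h1 h3)).trans ?_
        · rw [err_lo _ _ _ (hid (u ω) e), abs_neg]
          have a1 := abs_pr_le (fun f => grad g (Φ f)) (fun f => lo l (grad g (u ω) f)) e
            (two_zpow_pos l).le (fun f => abs_lo_le l _) (hK e)
          have a2 := abs_lo_le l (grad g (u ω) e)
          refine (abs_sub _ _).trans ?_
          linarith
        · rw [← Finset.mul_sum]
          exact mul_le_mul_of_nonneg_left (hW2 e) (by positivity)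
      · have a1 : C * (ρ + 1) ^ (p - 2) / (J : ℝ) ^ p ≤ 1 := (div_le_one (by positivity)).2 hJ1
        have a2 := mul_le_mul_of_nonneg_left a1 (by positivity : 0 ≤ η * J)
        refine le_trans (le_of_eq ?_) (a2.trans (mul_one _).le)
        rw [hC]; field_simp
    · refine le_trans (Real.rpow_le_rpow (Finset.sum_nonneg fun ω _ =>
        Finset.sum_nonneg fun j _ => by positivity) ?_ (by linarith)) hJ2
      refine band_sq_le (p - 2) _ (fun ω => grad g (u ω)) e J Js fun c h1 h3 => ?_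
      exact (Finset.sum_le_sum fun ω _ =>
        sum_mav_sq hJ0 (by linarith) _ h1 Js L (hL J Js c h1 h3)).trans (hW2 e)

lemma size_bound {γ C1 c K q : ℝ} (hγ : 0 < γ) (hC1 : 0 < C1) (hc : 0 < c) (hK : 0 < K)
    (hq : 0 < q) : ∃ C : ℝ, ∀ n : ℕ, 2 ≤ n →
      K * (64 * log (2 * n) * (8 ^ ⌈C1 * (64 * log (2 * n) + 1) ^ γ⌉₊ + c)) ^ q ≤
        exp (C * log n ^ γ) := by
  have hl2 : (1 : ℝ) / 2 < log 2 := by have := Real.log_two_gt_d9; linarith
  have hl8 : 0 < log 8 := Real.log_pos (by norm_num)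
  have hlc : 0 < log (1 + c) := Real.log_pos (by linarith)
  set l0 := log 2 ^ γ with hl0
  have hl00 : 0 < l0 := by positivity
  set c3 := 130 ^ γ / γ + log 8 * (C1 * 130 ^ γ) with hc3
  set c4 := log (1 + c) + log 8 with hc4
  refine ⟨q * c3 + (|log K| + q * c4) / l0, fun n hn => ?_⟩
  have hn' : (2 : ℝ) ≤ n := by exact_mod_cast hn
  have hln : log 2 ≤ log n := Real.log_le_log (by norm_num) hn'
  set Λ := log n ^ γ with hΛ
  have hΛ0 : l0 ≤ Λ := Real.rpow_le_rpow (by linarith) hln hγ.le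
  set ρ := 64 * log (2 * n) with hρ
  have hρe : ρ = 64 * (log 2 + log n) := by rw [hρ, Real.log_mul (by norm_num) (by linarith)]
  have hρ0 : 0 < ρ := by rw [hρe]; linarith
  have hρ1 : (ρ + 1) ^ γ ≤ 130 ^ γ * Λ := by
    rw [hΛ, ← Real.mul_rpow (by norm_num) (by linarith)]
    exact Real.rpow_le_rpow (by linarith) (by rw [hρe]; linarith) hγ.le
  set J := ⌈C1 * (ρ + 1) ^ γ⌉₊ with hJ
  have hJ1 : (J : ℝ) ≤ C1 * 130 ^ γ * Λ + 1 := by
    have h1 : (J : ℝ) < C1 * (ρ + 1) ^ γ + 1 := Nat.ceil_lt_add_one (by positivity)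
    have := mul_le_mul_of_nonneg_left hρ1 hC1.le
    linarith
  have h1 : ρ ≤ exp (130 ^ γ / γ * Λ) := by
    rw [← Real.log_le_iff_le_exp hρ0]
    refine (Real.log_le_rpow_div hρ0.le hγ).trans ?_
    rw [div_mul_eq_mul_div]
    exact div_le_div_of_nonneg_right
      ((Real.rpow_le_rpow hρ0.le (by linarith) hγ.le).trans hρ1) hγ.le
  have h2 : (8 : ℝ) ^ J + c ≤ exp (log (1 + c) + log 8 * (C1 * 130 ^ γ * Λ + 1)) := by
    have a1 : (1 : ℝ) ≤ 8 ^ J := one_le_pow₀ (by norm_num)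
    have a2 : (8 : ℝ) ^ J ≤ exp (log 8 * (C1 * 130 ^ γ * Λ + 1)) := by
      rw [← Real.rpow_natCast, Real.rpow_def_of_pos (by norm_num)]
      exact Real.exp_le_exp.2 (mul_le_mul_of_nonneg_left hJ1 hl8.le)
    rw [Real.exp_add, Real.exp_log (by linarith)]
    have a3 := mul_le_mul_of_nonneg_left a2 (by linarith : 0 ≤ 1 + c)
    have a4 := mul_le_mul_of_nonneg_left a1 hc.le
    linarith
  have h3 : ρ * (8 ^ J + c) ≤ exp (c3 * Λ + c4) := by
    refine (mul_le_mul h1 h2 (by positivity) (exp_pos _).le).trans (le_of_eq ?_)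
    rw [← Real.exp_add, hc3, hc4]; congr 1; ring
  have h4 : (ρ * (8 ^ J + c)) ^ q ≤ exp ((c3 * Λ + c4) * q) := by
    rw [Real.exp_mul]
    exact Real.rpow_le_rpow (by positivity) h3 hq.le
  have h5 : K ≤ exp |log K| := by
    rw [← Real.log_le_iff_le_exp hK]; exact le_abs_self _
  refine (mul_le_mul h5 h4 (by positivity) (exp_pos _).le).trans ?_
  rw [← Real.exp_add, Real.exp_le_exp]
  have h6 : |log K| + q * c4 ≤ (|log K| + q * c4) / l0 * Λ := by
    rw [div_mul_eq_mul_div, le_div_iff₀ hl00]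
    exact mul_le_mul_of_nonneg_left hΛ0 (by positivity)
  linarith

theorem core {p ε : ℝ} (hp : 1 < p) (hp2 : p ≠ 2) (hε : 0 < ε) (hε1 : ε ≤ 1) :
    ∃ C : ℝ, ∀ n : ℕ, 2 ≤ n → ∀ (Ω : Type) [Fintype Ω] (g : Fin n × Fin n → ℝ)
      (u : Ω → Fin n → ℝ), (∀ e, ∑ ω, |grad g (u ω) e| ^ p ≤ 1) →
      ∃ d : ℕ, (d : ℝ) ≤ exp (C * log n ^ gam p) ∧ ∃ (y : Fin d → Fin n → ℝ) (c : ℝ), 0 < c ∧
        ∀ e, ∑ ω, |grad g (u ω) e| ^ p = 1 → (1 - 5 * ε) * c ≤ ∑ k, |grad g (y k) e| ^ p ∧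
          ∑ k, |grad g (y k) e| ^ p ≤ (1 + 5 * ε) * c := by
  classical
  have hp0 : 0 < p := by linarith
  have hγ := gam_pos hp2
  have hc := cG_pos (by linarith : 0 < p - 1)
  obtain ⟨η, K, hη, hK, hmerge⟩ := merge hp hε hε1 (cG_pos hp0)
  obtain ⟨C1, hC1, hop⟩ := good_operator hp hp2 hη
  obtain ⟨C, hC⟩ := size_bound hγ hC1 hc hK (by linarith : 0 < 4 * p + 1)
  refine ⟨C, fun n hn Ω _ g u hs => ?_⟩
  have : Nonempty (Fin n) := ⟨⟨0, by omega⟩⟩
  have hn' : (2 : ℝ) ≤ n := by exact_mod_cast hn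
  set ρ := 64 * log (2 * n) with hρ
  have hρ1 : 1 ≤ ρ := by
    have h1 : log 2 ≤ log (2 * n) := Real.log_le_log (by norm_num) (by linarith)
    have := Real.log_two_gt_d9
    linarith
  set J := ⌈C1 * (ρ + 1) ^ gam p⌉₊ with hJ
  have hJ0 : 0 < J := Nat.ceil_pos.2 (by positivity)
  have hJ1 : (1 : ℝ) ≤ J := by exact_mod_cast hJ0
  set Js : Finset ℤ := (univ : Finset (Ω × (Fin n × Fin n))).biUnion fun z =>
    (Icc (0 : ℤ) (3 * J)).image fun i => Int.log 2 |grad g (u z.1) z.2| - i with hJs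
  obtain ⟨Φ, hΦ, hE, hV⟩ := hop (Fin n) Ω g u hs J (by
    rw [Fintype.card_fin]; exact Nat.le_ceil _) Js
  rw [Fintype.card_fin] at hΦ
  have hP := le_cJ hJ0 p
  have h8 : (1 : ℝ) ≤ 8 ^ J := one_le_pow₀ (by norm_num)
  have hsum : ∀ F : Ω → ℤ → ℝ, ∑ θ : Ω × Js, F θ.1 θ.2 = ∑ ω, ∑ j ∈ Js, F ω j := by
    intro F
    rw [Fintype.sum_prod_type]
    exact Finset.sum_congr rfl fun ω _ => Finset.sum_coe_sort Js (F ω)
  have hdiv : ∀ (j : ℤ) (x : ℝ), ((2 : ℝ) ^ j) ^ p * |x / 2 ^ j| ^ p = |x| ^ p := by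
    intro j x
    have t0 := two_zpow_pos j
    rw [abs_div, abs_of_pos t0, Real.div_rpow (abs_nonneg _) t0.le]; field_simp
  have hab : ∀ (ω : Ω) (j : ℤ) (e : Fin n × Fin n), al J j (grad g (u ω) e) / 2 ^ j +
      bandErr (fun f => grad g (Φ f)) J j (grad g (u ω)) e / 2 ^ j =
      pr (fun f => grad g (Φ f)) (fun f => al J j (grad g (u ω) f)) e / 2 ^ j := by
    intro ω j e; rw [bandErr]; ring
  obtain ⟨d, hd, x, c, hc0, hx⟩ := hmerge (Ω × Js) {e // ∑ ω, |grad g (u ω) e| ^ p = 1}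
    (fun θ => ((2 : ℝ) ^ (θ.2 : ℤ)) ^ p)
    (fun θ e => al J θ.2 (grad g (u θ.1) e) / 2 ^ (θ.2 : ℤ))
    (fun θ e => bandErr (fun f => grad g (Φ f)) J θ.2 (grad g (u θ.1)) e / 2 ^ (θ.2 : ℤ))
    (cJ J p) (ρ * (8 ^ J + cG (p - 1))) (fun θ => by positivity) (hJ1.trans hP)
    (one_le_mul_of_one_le_of_one_le hρ1 (by linarith))
    (by
      have a1 : (Fintype.card {e // ∑ ω, |grad g (u ω) e| ^ p = 1} : ℝ) ≤ n * n := by
        have := Fintype.card_subtype_le (fun e => ∑ ω, |grad g (u ω) e| ^ p = 1)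
        rw [Fintype.card_prod, Fintype.card_fin] at this
        exact_mod_cast this
      have a2 : exp (log (2 * n) + log (2 * n)) = 2 * n * (2 * n) := by
        rw [Real.exp_add, Real.exp_log (by linarith)]
      have a3 : exp (log (2 * n) + log (2 * n)) ≤ exp (ρ * (8 ^ J + cG (p - 1))) := by
        refine Real.exp_le_exp.2 (le_trans ?_ (le_mul_of_one_le_right (by linarith) (by linarith)))
        linarith
      have : (0 : ℝ) ≤ n * n := by positivity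
      linarith)
    (fun e => by
      rw [hsum fun ω j => if al J j (grad g (u ω) e) / 2 ^ j = 0 then 0 else ((2 : ℝ) ^ j) ^ p]
      refine sum_le_of_norm (cG_pos hp0).le (fun ω => grad g (u ω) e) (hs e) _ fun ω => ?_
      refine le_trans (le_of_eq (Finset.sum_congr rfl fun j _ => ?_)) (sum_rare hJ0 hp0 _ Js)
      simp only [div_eq_zero_iff, (two_zpow_pos j).ne', or_false])
    (fun e => by
      rw [hsum fun ω j => ((2 : ℝ) ^ j) ^ p * |al J j (grad g (u ω) e) / 2 ^ j| ^ p]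
      simp only [hdiv]
      rw [Finset.sum_congr rfl fun ω _ => sum_al_rpow hJ0 hp0 (grad g (u ω) e) Js fun i hi =>
        Finset.mem_biUnion.2 ⟨(ω, e.1), mem_univ _, Finset.mem_image_of_mem _ hi⟩,
        ← Finset.mul_sum, e.2, mul_one])
    (fun e => by
      rw [hsum fun ω j => ((2 : ℝ) ^ j) ^ p *
        |bandErr (fun f => grad g (Φ f)) J j (grad g (u ω)) e / 2 ^ j| ^ p]
      simp only [hdiv]
      exact (hE e).trans (mul_le_mul_of_nonneg_left hP hη.le))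
    (fun h2 e => by
      rw [hsum fun ω j => ((2 : ℝ) ^ j) ^ p *
        (bandErr (fun f => grad g (Φ f)) J j (grad g (u ω)) e / 2 ^ j) ^ 2]
      refine le_trans (le_of_eq ?_) ((hV h2 e).trans (mul_le_mul_of_nonneg_left hP hη.le))
      congr 1
      refine Finset.sum_congr rfl fun ω _ => Finset.sum_congr rfl fun j _ => ?_
      rw [Real.rpow_sub (two_zpow_pos j), Real.rpow_two]; ring)
    (fun θ e => by
      have t0 := two_zpow_pos θ.2
      rw [hab, abs_div, abs_of_pos t0, div_le_iff₀ t0]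
      refine (abs_pr_le _ _ _ (by positivity) (fun f => abs_al_le_zpow hJ0 _ _) (hΦ e)).trans ?_
      have : 0 ≤ ρ * cG (p - 1) * 2 ^ (θ.2 : ℤ) := by positivity
      linarith)
    (fun e => by
      simp only [hab]
      rw [hsum fun ω j => ((2 : ℝ) ^ j) ^ p *
        |pr (fun f => grad g (Φ f)) (fun f => al J j (grad g (u ω) f)) e / 2 ^ j|]
      have a1 := sum_abs_pr_le (fun f => grad g (Φ f)) Js (fun l => ((2 : ℝ) ^ l) ^ (p - 1))
        (fun l => by positivity) (fun ω l f => al J l (grad g (u ω) f)) e hc.le (fun f =>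
          sum_le_of_norm hc.le (fun ω => grad g (u ω) f) (hs f) _ fun ω =>
            le_trans (Finset.sum_le_sum fun l _ =>
              mul_le_mul_of_nonneg_left (abs_al_le_hi hJ0 l _) (by positivity))
              (sum_hi_abs hp _ Js)) (hΦ e)
      have a2 : 0 ≤ ρ * 8 ^ J := by positivity
      refine le_trans (le_of_eq ?_) (a1.trans (by linarith))
      refine Finset.sum_congr rfl fun ω _ => Finset.sum_congr rfl fun j _ => ?_
      have t0 := two_zpow_pos j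
      rw [abs_div, abs_of_pos t0, Real.rpow_sub_one t0.ne']; ring)
  refine ⟨d, hd.trans (hC n hn), fun k => ∑ θ : Ω × Js, (x k θ / 2 ^ (θ.2 : ℤ)) •
    ∑ f, al J θ.2 (grad g (u θ.1) f) • Φ f, c, hc0, fun e he => ?_⟩
  have := hx ⟨e, he⟩
  simp only [hab] at this
  convert this using 5 <;>
  · rw [grad_sum]
    refine Finset.sum_congr rfl fun θ _ => ?_
    rw [grad_smul, grad_comb, pr]; ring

end Crest.Agent.R232
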