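import Mathlib

/-! Discretisation of finitely many points of `L^p`. -/

set_option autoImplicit false
open MeasureTheory
open scoped ENNReal

namespace Crest.Agent.R232

lemma norm_simple {α β : Type*} [MeasurableSpace α] (μ : Measure α) {p : ℝ≥0∞} (hp0 : p ≠ 0)
    (hptop : p ≠ ⊤) (g : SimpleFunc α β) (φ : β → ℝ) (h : MemLp (fun a => φ (g a)) p μ) :
    (eLpNorm (fun a => φ (g a)) p μ).toReal =
      (∑ v ∈ g.range, |(μ.real (g ⁻¹' {v})) ^ (1 / p.toReal) * φ v| ^ p.toReal) ^ (1 / p.toReal) := by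
  have hq : 0 < p.toReal := ENNReal.toReal_pos hp0 hptop
  have h1 : ∫⁻ a, ‖φ (g a)‖ₑ ^ p.toReal ∂μ =
      ∑ v ∈ g.range, ‖φ v‖ₑ ^ p.toReal * μ (g ⁻¹' {v}) := by
    rw [← SimpleFunc.map_lintegral, ← SimpleFunc.lintegral_eq_lintegral]; rfl
  have h2 : ∫⁻ a, ‖φ (g a)‖ₑ ^ p.toReal ∂μ ≠ ⊤ :=
    (lintegral_rpow_enorm_lt_top_of_eLpNorm_lt_top hp0 hptop h.2).ne
  rw [eLpNorm_eq_lintegral_rpow_enorm_toReal hp0 hptop, ← ENNReal.toReal_rpow, h1,
    ENNReal.toReal_sum (ENNReal.sum_ne_top.1 (h1 ▸ h2))]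
  congr 1
  refine Finset.sum_congr rfl fun v _ => ?_
  have h3 : 0 ≤ μ.real (g ⁻¹' {v}) := measureReal_nonneg
  rw [ENNReal.toReal_mul, ← ENNReal.toReal_rpow, toReal_enorm, Real.norm_eq_abs, abs_mul,
    Real.mul_rpow (abs_nonneg _) (abs_nonneg _), abs_of_nonneg (Real.rpow_nonneg h3 _),
    ← Real.rpow_mul h3, one_div_mul_cancel hq.ne', Real.rpow_one, mul_comm]
  rfl

lemma discretise {α : Type*} [MeasurableSpace α] (μ : Measure α) {p : ℝ≥0∞} [Fact (1 ≤ p)]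
    (hptop : p ≠ ⊤) {n : ℕ} (x : Fin n → Lp ℝ p μ) {τ : ℝ} (hτ : 0 < τ) :
    ∃ (Ω : Type) (_ : Fintype Ω) (u : Ω → Fin n → ℝ), ∀ i j,
      |(∑ ω, |u ω i - u ω j| ^ p.toReal) ^ (1 / p.toReal) - ‖x i - x j‖| ≤ τ := by
  have hp0 : p ≠ 0 := (lt_of_lt_of_le one_pos (Fact.out : 1 ≤ p)).ne'
  have hf : MemLp (fun a i => x i a) p μ := MemLp.of_eval fun i => Lp.memLp (x i)
  obtain ⟨g, hg, hgm⟩ := hf.exists_simpleFunc_eLpNorm_sub_lt hptop
    (ε := ENNReal.ofReal (τ / 2)) (by simpa using hτ)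
  refine ⟨g.range, inferInstance,
    fun v i => (μ.real (g ⁻¹' {v.1})) ^ (1 / p.toReal) * v.1 i, fun i j => ?_⟩
  have hz : ∀ i, MemLp (fun a => g a i) p μ := fun i => hgm.eval i
  have hclose : ∀ i, ‖(hz i).toLp _ - x i‖ ≤ τ / 2 := by
    intro i
    rw [norm_sub_rev, Lp.norm_def]
    refine ENNReal.toReal_le_of_le_ofReal (by linarith) (le_trans ?_ hg.le)
    refine eLpNorm_mono_ae ?_
    filter_upwards [Lp.coeFn_sub (x i) ((hz i).toLp _), MemLp.coeFn_toLp (hz i)] with a h1 h2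
    rw [h1, Pi.sub_apply, h2]
    exact norm_le_pi_norm (((fun a i => x i a) - ⇑g) a) i
  have h1 : ‖(hz i).toLp _ - (hz j).toLp _‖ =
      (∑ v : g.range, |(μ.real (g ⁻¹' {v.1})) ^ (1 / p.toReal) * v.1 i -
        (μ.real (g ⁻¹' {v.1})) ^ (1 / p.toReal) * v.1 j| ^ p.toReal) ^ (1 / p.toReal) := by
    rw [← MemLp.toLp_sub, Lp.norm_toLp]
    have := norm_simple μ hp0 hptop g (fun v => v i - v j) ((hz i).sub (hz j))
    refine this.trans ?_
    rw [← Finset.sum_coe_sort g.range]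
    simp only [mul_sub]
  rw [← h1]
  refine (abs_norm_sub_norm_le _ _).trans ?_
  have e : (hz i).toLp _ - (hz j).toLp _ - (x i - x j) =
      ((hz i).toLp _ - x i) - ((hz j).toLp _ - x j) := by abel
  rw [e]
  refine (norm_sub_le _ _).trans ?_
  have := hclose i; have := hclose j
  linarith

end Crest.Agent.R232
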