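import Mathlib

/-!
Localization of electrical flows (entropy proof): the orthogonal projection onto gradients has
average absolute row sum `O(log n)`.
-/

set_option autoImplicit false
set_option linter.unusedSectionVars false
open Finset Filter Topology

namespace Crest.Agent.R232

variable {X : Type*}

/-- normalised gradient along an ordered pair -/
def grad (g : X × X → ℝ) (φ : X → ℝ) (e : X × X) : ℝ := g e * (φ e.1 - φ e.2)

lemma grad_sub (g : X × X → ℝ) (φ ψ : X → ℝ) (e : X × X) :
    grad g (φ - ψ) e = grad g φ e - grad g ψ e := by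
  simp only [grad, Pi.sub_apply]; ring

lemma grad_add (g : X × X → ℝ) (φ ψ : X → ℝ) (e : X × X) :
    grad g (φ + ψ) e = grad g φ e + grad g ψ e := by
  simp only [grad, Pi.add_apply]; ring

lemma grad_smul (g : X × X → ℝ) (c : ℝ) (φ : X → ℝ) (e : X × X) :
    grad g (c • φ) e = c * grad g φ e := by
  simp only [grad, Pi.smul_apply, smul_eq_mul]; ring

lemma grad_sum {ι : Type*} (g : X × X → ℝ) (s : Finset ι) (φ : ι → X → ℝ) (e : X × X) :
    grad g (∑ i ∈ s, φ i) e = ∑ i ∈ s, grad g (φ i) e := by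
  simp only [grad, Finset.sum_apply, ← Finset.mul_sum, Finset.sum_sub_distrib]

variable [Fintype X]

/-- Dirichlet form -/
def dir (g w : X × X → ℝ) (φ ψ : X → ℝ) : ℝ := ∑ e, w e * (grad g φ e * grad g ψ e)

/-- reference measure -/
def pim (w : X × X → ℝ) (x : X) : ℝ := ∑ y, (w (x, y) + w (y, x))

/-- conductances -/
def cnd (g w : X × X → ℝ) (x y : X) : ℝ := w (x, y) * g (x, y) ^ 2 + w (y, x) * g (y, x) ^ 2

/-- the Markov operator -/
noncomputable def mk (g w : X × X → ℝ) (η : ℝ) : (X → ℝ) →ₗ[ℝ] (X → ℝ) where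
  toFun φ x := φ x - η / pim w x * ∑ y, cnd g w x y * (φ x - φ y)
  map_add' φ ψ := by
    funext x
    simp only [Pi.add_apply]
    have : ∑ y, cnd g w x y * (φ x + ψ x - (φ y + ψ y)) =
        ∑ y, cnd g w x y * (φ x - φ y) + ∑ y, cnd g w x y * (ψ x - ψ y) := by
      rw [← Finset.sum_add_distrib]; exact Finset.sum_congr rfl fun y _ => by ring
    rw [this]; ring
  map_smul' c φ := by
    funext x
    simp only [Pi.smul_apply, smul_eq_mul, RingHom.id_apply]
    have : ∑ y, cnd g w x y * (c * φ x - c * φ y) = c * ∑ y, cnd g w x y * (φ x - φ y) := by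
      rw [Finset.mul_sum]; exact Finset.sum_congr rfl fun y _ => by ring
    rw [this]; ring

lemma mk_apply (g w : X × X → ℝ) (η : ℝ) (φ : X → ℝ) (x : X) :
    mk g w η φ x = φ x - η / pim w x * ∑ y, cnd g w x y * (φ x - φ y) := rfl

lemma sym_sum (F G : X × X → ℝ) :
    ∑ x, ∑ y, (F (x, y) + G (y, x)) = ∑ e, (F e + G e) := by
  rw [Finset.sum_add_distrib, Fintype.sum_prod_type, Fintype.sum_prod_type]
  simp only [Finset.sum_add_distrib]
  rw [Finset.sum_comm (f := fun x y => G (y, x))]

lemma dir_comm (g w : X × X → ℝ) (φ ψ : X → ℝ) : dir g w φ ψ = dir g w ψ φ := by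
  unfold dir; exact Finset.sum_congr rfl fun e _ => by ring

lemma inner_sub_mk (g w : X × X → ℝ) (η : ℝ) (hπ : ∀ x, pim w x ≠ 0) (φ ψ : X → ℝ) :
    ∑ x, pim w x * ((φ x - mk g w η φ x) * ψ x) = η * dir g w φ ψ := by
  have h1 : ∀ x, pim w x * ((φ x - mk g w η φ x) * ψ x) =
      η * ∑ y, ((fun e : X × X => w e * g e ^ 2 * (φ e.1 - φ e.2) * ψ e.1) (x, y) +
        (fun e : X × X => w e * g e ^ 2 * (φ e.2 - φ e.1) * ψ e.2) (y, x)) := by
    intro x
    rw [mk_apply]
    have := hπ x
    have h2 : ∑ y, ((fun e : X × X => w e * g e ^ 2 * (φ e.1 - φ e.2) * ψ e.1) (x, y) +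
        (fun e : X × X => w e * g e ^ 2 * (φ e.2 - φ e.1) * ψ e.2) (y, x)) =
        (∑ y, cnd g w x y * (φ x - φ y)) * ψ x := by
      rw [Finset.sum_mul]; exact Finset.sum_congr rfl fun y _ => by simp only [cnd]; ring
    rw [h2]; field_simp; ring
  rw [Finset.sum_congr rfl fun x _ => h1 x, ← Finset.mul_sum,
    sym_sum (fun e : X × X => w e * g e ^ 2 * (φ e.1 - φ e.2) * ψ e.1)
      (fun e : X × X => w e * g e ^ 2 * (φ e.2 - φ e.1) * ψ e.2)]
  unfold dir grad
  congr 1
  exact Finset.sum_congr rfl fun e _ => by ring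

lemma mk_selfadj (g w : X × X → ℝ) (η : ℝ) (hπ : ∀ x, pim w x ≠ 0) (φ ψ : X → ℝ) :
    ∑ x, pim w x * (mk g w η φ x * ψ x) = ∑ x, pim w x * (φ x * mk g w η ψ x) := by
  have h1 := inner_sub_mk g w η hπ φ ψ
  have h2 := inner_sub_mk g w η hπ ψ φ
  rw [dir_comm] at h2
  have e1 : ∑ x, pim w x * ((φ x - mk g w η φ x) * ψ x) =
      ∑ x, pim w x * (φ x * ψ x) - ∑ x, pim w x * (mk g w η φ x * ψ x) := by
    rw [← Finset.sum_sub_distrib]; exact Finset.sum_congr rfl fun x _ => by ring
  have e2 : ∑ x, pim w x * ((ψ x - mk g w η ψ x) * φ x) =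
      ∑ x, pim w x * (φ x * ψ x) - ∑ x, pim w x * (φ x * mk g w η ψ x) := by
    rw [← Finset.sum_sub_distrib]; exact Finset.sum_congr rfl fun x _ => by ring
  linarith

lemma mk_pow_selfadj (g w : X × X → ℝ) (η : ℝ) (hπ : ∀ x, pim w x ≠ 0) (s : ℕ) (φ ψ : X → ℝ) :
    ∑ x, pim w x * ((mk g w η ^ s) φ x * ψ x) = ∑ x, pim w x * (φ x * (mk g w η ^ s) ψ x) := by
  induction s generalizing φ ψ with
  | zero => simp
  | succ s ih =>
    rw [pow_succ' (mk g w η) s, Module.End.mul_apply, mk_selfadj g w η hπ, ih,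
      ← pow_succ' (mk g w η) s, pow_succ (mk g w η) s, Module.End.mul_apply]

lemma mk_one (g w : X × X → ℝ) (η : ℝ) : mk g w η (fun _ => 1) = fun _ => 1 := by
  funext x; simp [mk_apply]

lemma mk_stationary (g w : X × X → ℝ) (η : ℝ) (hπ : ∀ x, pim w x ≠ 0) (φ : X → ℝ) :
    ∑ x, pim w x * mk g w η φ x = ∑ x, pim w x * φ x := by
  have := mk_selfadj g w η hπ φ (fun _ => 1)
  rw [mk_one] at this
  simpa using this

/-- pointwise entropy inequality -/
lemma ent_pt {a m : ℝ} (ha : 0 ≤ a) (hm : 0 < m) :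
    (√a - √m) ^ 2 ≤ a * Real.log a - a * Real.log m - a + m := by
  rcases ha.eq_or_lt with rfl | ha'
  · simp [Real.sq_sqrt hm.le]
  have hsa : 0 < √a := Real.sqrt_pos.2 ha'
  have hsm : 0 < √m := Real.sqrt_pos.2 hm
  have h1 : Real.log (√m / √a) ≤ √m / √a - 1 := Real.log_le_sub_one_of_pos (by positivity)
  rw [Real.log_div hsm.ne' hsa.ne', Real.log_sqrt hm.le, Real.log_sqrt ha] at h1
  have h2 : a * (√m / √a) = √a * √m := by
    have : a = √a * √a := (Real.mul_self_sqrt ha).symm
    field_simp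
    nlinarith
  have h3 : a * (Real.log m / 2 - Real.log a / 2) ≤ a * (√m / √a - 1) :=
    mul_le_mul_of_nonneg_left h1 ha
  have h4 : (√a) ^ 2 = a := Real.sq_sqrt ha
  have h5 : (√m) ^ 2 = m := Real.sq_sqrt hm.le
  nlinarith

lemma ent_pt' {c a m : ℝ} (hc : 0 ≤ c) (ha : 0 ≤ a) (hm : c * a ≤ m) :
    c * (√a - √m) ^ 2 ≤ c * (a * Real.log a - a * Real.log m - a + m) := by
  have hm0 : 0 ≤ m := le_trans (mul_nonneg hc ha) hm
  rcases hm0.eq_or_lt with rfl | hm'
  · have : c * a = 0 := le_antisymm hm (mul_nonneg hc ha)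
    rcases mul_eq_zero.1 this with rfl | rfl <;> simp
  · exact mul_le_mul_of_nonneg_left (ent_pt ha hm') hc

section chain
variable (g w : X × X → ℝ) (η : ℝ) (hw : ∀ e, 0 ≤ w e) (hπ : ∀ x, 0 < pim w x) (hη : 0 < η)
  (hlazy : ∀ x, η / pim w x * ∑ y, cnd g w x y ≤ 1 / 2)
include hw

lemma cnd_nonneg (x y : X) : 0 ≤ cnd g w x y := by
  unfold cnd; have := hw (x, y); have := hw (y, x); positivity

include hπ hη hlazy

lemma mk_eq (φ : X → ℝ) (x : X) : mk g w η φ x =
    (1 - η / pim w x * ∑ y, cnd g w x y) * φ x + ∑ y, (η / pim w x * cnd g w x y) * φ y := by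
  rw [mk_apply]
  simp only [mul_sub, Finset.sum_sub_distrib, ← Finset.sum_mul, mul_assoc, ← Finset.mul_sum]
  ring

lemma mk_nonneg (φ : X → ℝ) (hφ : ∀ x, 0 ≤ φ x) (x : X) : 0 ≤ mk g w η φ x := by
  rw [mk_eq g w η hw hπ hη hlazy]
  have h1 := hlazy x
  have h2 := hφ x
  have := hπ x
  refine add_nonneg (mul_nonneg (by linarith) h2) (Finset.sum_nonneg fun y _ => ?_)
  have := cnd_nonneg g w hw x y
  have := hφ y
  positivity

/-- entropy decrement dominates the Dirichlet form of the square root -/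
lemma ent_step (q : X → ℝ) (hq : ∀ x, 0 ≤ q x) :
    η * dir g w (fun x => √(q x)) (fun x => √(q x)) ≤
      ∑ x, pim w x * (q x * Real.log (q x)) -
        ∑ x, pim w x * (mk g w η q x * Real.log (mk g w η q x)) := by
  rw [← mk_stationary g w η (fun x => (hπ x).ne') (fun x => q x * Real.log (q x)),
    ← Finset.sum_sub_distrib]
  have key : ∀ x, η / 2 * ∑ y, cnd g w x y * (√(q x) - √(q y)) ^ 2 ≤
      pim w x * mk g w η (fun x => q x * Real.log (q x)) x -
        pim w x * (mk g w η q x * Real.log (mk g w η q x)) := by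
    intro x
    set m := mk g w η q x with hm
    set st := 1 - η / pim w x * ∑ y, cnd g w x y with hst
    have hπx := hπ x
    have hpnn : ∀ y, 0 ≤ η / pim w x * cnd g w x y := fun y => by
      have := cnd_nonneg g w hw x y; positivity
    have hst2 : 1 / 2 ≤ st := by have := hlazy x; linarith
    have hsum : ∑ y, η / pim w x * cnd g w x y = 1 - st := by
      rw [← Finset.mul_sum]; linarith
    have hmeq : m = st * q x + ∑ y, (η / pim w x * cnd g w x y) * q y :=
      mk_eq g w η hw hπ hη hlazy q x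
    have hsnn : 0 ≤ ∑ y, (η / pim w x * cnd g w x y) * q y :=
      Finset.sum_nonneg fun y _ => mul_nonneg (hpnn y) (hq y)
    have hstq : 0 ≤ st * q x := mul_nonneg (by linarith) (hq x)
    have a1 : st * (√(q x) - √m) ^ 2 ≤ st * (q x * Real.log (q x) - q x * Real.log m - q x + m) :=
      ent_pt' (by linarith) (hq x) (by linarith)
    have a2 : ∀ y, (η / pim w x * cnd g w x y) * (√(q y) - √m) ^ 2 ≤
        (η / pim w x * cnd g w x y) * (q y * Real.log (q y) - q y * Real.log m - q y + m) := by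
      intro y
      refine ent_pt' (hpnn y) (hq y) ?_
      have := Finset.single_le_sum (f := fun y => (η / pim w x * cnd g w x y) * q y)
        (fun y _ => mul_nonneg (hpnn y) (hq y)) (Finset.mem_univ y)
      linarith
    have a3 := Finset.sum_le_sum fun y (_ : y ∈ Finset.univ) => a2 y
    have a4 : ∑ y, (η / pim w x * cnd g w x y) *
        (q y * Real.log (q y) - q y * Real.log m - q y + m) =
        ∑ y, (η / pim w x * cnd g w x y) * (q y * Real.log (q y)) -
          (∑ y, (η / pim w x * cnd g w x y) * q y) * Real.log m -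
          ∑ y, (η / pim w x * cnd g w x y) * q y + (1 - st) * m := by
      rw [← hsum, Finset.sum_mul, Finset.sum_mul, ← Finset.sum_sub_distrib,
        ← Finset.sum_sub_distrib, ← Finset.sum_add_distrib]
      exact Finset.sum_congr rfl fun y _ => by ring
    have a5 : ∑ y, (η / pim w x * cnd g w x y) * (√(q x) - √(q y)) ^ 2 ≤
        2 * (1 - st) * (√(q x) - √m) ^ 2 +
          2 * ∑ y, (η / pim w x * cnd g w x y) * (√(q y) - √m) ^ 2 := by
      rw [← hsum, Finset.mul_sum, Finset.mul_sum, Finset.sum_mul, ← Finset.sum_add_distrib]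
      refine Finset.sum_le_sum fun y _ => ?_
      have h : (√(q x) - √(q y)) ^ 2 ≤ 2 * (√(q x) - √m) ^ 2 + 2 * (√(q y) - √m) ^ 2 := by
        nlinarith [sq_nonneg (√(q x) + √(q y) - 2 * √m)]
      have := mul_le_mul_of_nonneg_left h (hpnn y)
      linarith
    have a6 : (1 - st) * (√(q x) - √m) ^ 2 ≤ st * (√(q x) - √m) ^ 2 :=
      mul_le_mul_of_nonneg_right (by linarith) (sq_nonneg _)
    have a7 : mk g w η (fun x => q x * Real.log (q x)) x = st * (q x * Real.log (q x)) +
        ∑ y, (η / pim w x * cnd g w x y) * (q y * Real.log (q y)) :=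
      mk_eq g w η hw hπ hη hlazy _ x
    have a8 : η / 2 * ∑ y, cnd g w x y * (√(q x) - √(q y)) ^ 2 =
        pim w x * (1 / 2 * ∑ y, (η / pim w x * cnd g w x y) * (√(q x) - √(q y)) ^ 2) := by
      simp only [mul_assoc, ← Finset.mul_sum]; field_simp
    rw [a8, ← mul_sub]
    refine mul_le_mul_of_nonneg_left ?_ hπx.le
    rw [a7]
    have a9 : m * Real.log m = (st * q x + ∑ y, (η / pim w x * cnd g w x y) * q y) * Real.log m := by
      rw [← hmeq]
    rw [a9]
    nlinarith
  refine le_trans (le_of_eq ?_) (Finset.sum_le_sum fun x _ => key x)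
  rw [← Finset.mul_sum]
  have : ∑ x, ∑ y, cnd g w x y * (√(q x) - √(q y)) ^ 2 =
      ∑ x, ∑ y, ((fun e : X × X => w e * g e ^ 2 * (√(q e.1) - √(q e.2)) ^ 2) (x, y) +
        (fun e : X × X => w e * g e ^ 2 * (√(q e.1) - √(q e.2)) ^ 2) (y, x)) :=
    Finset.sum_congr rfl fun x _ => Finset.sum_congr rfl fun y _ => by simp only [cnd]; ring
  rw [this, sym_sum (fun e : X × X => w e * g e ^ 2 * (√(q e.1) - √(q e.2)) ^ 2)
    (fun e : X × X => w e * g e ^ 2 * (√(q e.1) - √(q e.2)) ^ 2)]
  unfold dir grad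
  rw [Finset.mul_sum, Finset.mul_sum]
  exact Finset.sum_congr rfl fun e _ => by ring

omit hπ hη hlazy in
/-- the total variation of a density is controlled by the energy of its square root -/
lemma tv_sq_le (q : X → ℝ) (hq : ∀ x, 0 ≤ q x) (h1 : ∑ x, pim w x * q x = 1) :
    (∑ e, w e * |grad g q e|) ^ 2 ≤ 2 * dir g w (fun x => √(q x)) (fun x => √(q x)) := by
  have h := Finset.sum_sq_le_sum_mul_sum_of_sq_le_mul (Finset.univ : Finset (X × X))
    (r := fun e => w e * |grad g q e|)
    (f := fun e => w e * (√(q e.1) + √(q e.2)) ^ 2)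
    (g := fun e => w e * (grad g (fun x => √(q x)) e * grad g (fun x => √(q x)) e))
    (fun e _ => mul_nonneg (hw e) (sq_nonneg _))
    (fun e _ => mul_nonneg (hw e) (mul_self_nonneg _))
    (fun e _ => by
      simp only [grad, mul_pow, sq_abs]
      have a := Real.sq_sqrt (hq e.1)
      have b := Real.sq_sqrt (hq e.2)
      have : q e.1 - q e.2 = (√(q e.1) + √(q e.2)) * (√(q e.1) - √(q e.2)) := by nlinarith
      rw [this]; exact le_of_eq (by ring))
  refine h.trans (mul_le_mul_of_nonneg_right ?_ ?_)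
  · have h2 : ∑ x, pim w x * q x = ∑ e, (w e * q e.1 + w e * q e.2) := by
      rw [← sym_sum (fun e => w e * q e.1) (fun e => w e * q e.2)]
      refine Finset.sum_congr rfl fun x _ => ?_
      unfold pim; rw [Finset.sum_mul]; exact Finset.sum_congr rfl fun y _ => by ring
    rw [← mul_one (2 : ℝ), ← h1, h2, Finset.mul_sum]
    refine Finset.sum_le_sum fun e _ => ?_
    have a := Real.sq_sqrt (hq e.1)
    have b := Real.sq_sqrt (hq e.2)
    have : (√(q e.1) + √(q e.2)) ^ 2 ≤ 2 * (q e.1 + q e.2) := by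
      nlinarith [sq_nonneg (√(q e.1) - √(q e.2))]
    have := mul_le_mul_of_nonneg_left this (hw e)
    linarith
  · exact Finset.sum_nonneg fun e _ => mul_nonneg (hw e) (mul_self_nonneg _)

end chain

/-- entropy lower bound -/
lemma ent_ge (π q : X → ℝ) (hπ : ∀ x, 0 ≤ π x) (hq : ∀ x, 0 ≤ q x) (h1 : ∑ x, π x * q x = 1)
    {S : ℝ} (hS : 0 < S) (hS' : ∑ x, π x = S) :
    - Real.log S ≤ ∑ x, π x * (q x * Real.log (q x)) := by
  have key : ∀ x, π x * (q x * (- Real.log S) + q x - 1 / S) ≤ π x * (q x * Real.log (q x)) := by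
    intro x
    refine mul_le_mul_of_nonneg_left ?_ (hπ x)
    have := ent_pt (hq x) (one_div_pos.2 hS)
    rw [one_div, Real.log_inv] at this
    rw [one_div]
    nlinarith [sq_nonneg (√(q x) - √(S⁻¹))]
  refine le_trans (le_of_eq ?_) (Finset.sum_le_sum fun x _ => key x)
  have : ∑ x, π x * (q x * (- Real.log S) + q x - 1 / S) =
      (∑ x, π x * q x) * (- Real.log S) + ∑ x, π x * q x - (∑ x, π x) * (1 / S) := by
    rw [Finset.sum_mul, Finset.sum_mul, ← Finset.sum_add_distrib, ← Finset.sum_sub_distrib]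
    exact Finset.sum_congr rfl fun x _ => by ring
  rw [this, h1, hS']; field_simp; ring

variable [DecidableEq X]

/-- the point mass density -/
noncomputable def delta (w : X × X → ℝ) (z : X) : X → ℝ := fun x => if x = z then 1 / pim w z else 0

lemma repr_delta (w : X × X → ℝ) (hπ : ∀ x, 0 < pim w x) (φ : X → ℝ) :
    φ = ∑ z, (pim w z * φ z) • delta w z := by
  funext x
  simp only [Finset.sum_apply, Pi.smul_apply, delta, smul_eq_mul, mul_ite, mul_zero,
    Finset.sum_ite_eq, Finset.mem_univ, if_true]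
  have := (hπ x).ne'
  field_simp

lemma grad_pow_repr (g w : X × X → ℝ) (η : ℝ) (hπ : ∀ x, 0 < pim w x) (s : ℕ) (φ : X → ℝ)
    (e : X × X) : grad g ((mk g w η ^ s) φ) e =
      ∑ z, pim w z * φ z * grad g ((mk g w η ^ s) (delta w z)) e := by
  conv_lhs => rw [repr_delta w hπ φ]
  rw [map_sum, grad_sum]
  exact Finset.sum_congr rfl fun z _ => by rw [map_smul, grad_smul]

lemma eval_delta (w : X × X → ℝ) (hπ : ∀ x, 0 < pim w x) (φ : X → ℝ) (z : X) :
    ∑ x, pim w x * (φ x * delta w z x) = φ z := by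
  simp only [delta, mul_ite, mul_zero, Finset.sum_ite_eq', Finset.mem_univ, if_true]
  have := (hπ z).ne'
  field_simp

/-- Localization of electrical flows. -/
theorem localization (g w : X × X → ℝ) (hw : ∀ e, 0 ≤ w e) (hπ : ∀ x, 0 < pim w x)
    (Φ : X × X → X → ℝ) (hΦ : ∀ f ψ, dir g w (Φ f) ψ = w f * grad g ψ f)
    {S : ℝ} (hS : 0 < S) (hS' : ∑ x, pim w x = S) :
    ∑ e, ∑ f, w e * |grad g (Φ f) e| ≤ 4 * ∑ z, pim w z * Real.log (S / pim w z) := by
  -- the lazy chain
  obtain ⟨η, hη, hlazy⟩ : ∃ η : ℝ, 0 < η ∧ ∀ x, η / pim w x * ∑ y, cnd g w x y ≤ 1 / 2 := by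
    have hnn : ∀ x, 0 ≤ (∑ y, cnd g w x y) / pim w x := fun x =>
      div_nonneg (Finset.sum_nonneg fun y _ => cnd_nonneg g w hw x y) (hπ x).le
    have hT : 0 ≤ ∑ x, (∑ y, cnd g w x y) / pim w x := Finset.sum_nonneg fun x _ => hnn x
    refine ⟨1 / (2 * (1 + ∑ x, (∑ y, cnd g w x y) / pim w x)), by positivity, fun x => ?_⟩
    have h1 : (∑ y, cnd g w x y) / pim w x ≤ ∑ x, (∑ y, cnd g w x y) / pim w x :=
      Finset.single_le_sum (f := fun x => (∑ y, cnd g w x y) / pim w x) (fun x _ => hnn x)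
        (Finset.mem_univ x)
    have h2 : 1 / (2 * (1 + ∑ x, (∑ y, cnd g w x y) / pim w x)) / pim w x * ∑ y, cnd g w x y =
        ((∑ y, cnd g w x y) / pim w x) / (2 * (1 + ∑ x, (∑ y, cnd g w x y) / pim w x)) := by
      ring
    rw [h2, div_le_iff₀ (by positivity)]
    linarith
  set P := mk g w η with hP
  have hπ' : ∀ x, pim w x ≠ 0 := fun x => (hπ x).ne'
  set q : X → ℕ → X → ℝ := fun z s => (P ^ s) (delta w z) with hq
  have q_succ : ∀ z s, q z (s + 1) = P (q z s) := fun z s => by
    simp only [hq, pow_succ', Module.End.mul_apply]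
  have q_nonneg : ∀ z s x, 0 ≤ q z s x := by
    intro z s
    induction s with
    | zero =>
      intro x
      simp only [hq, pow_zero, Module.End.one_apply, delta]
      have := hπ z
      split_ifs <;> positivity
    | succ s ih => intro x; rw [q_succ]; exact mk_nonneg g w η hw hπ hη hlazy _ ih x
  have q_mass : ∀ z s, ∑ x, pim w x * q z s x = 1 := by
    intro z s
    induction s with
    | zero =>
      have := eval_delta w hπ (fun _ => 1) z
      simpa [hq] using this
    | succ s ih => rw [q_succ, mk_stationary g w η hπ', ih]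
  set N : X → ℕ → ℝ := fun z s => ∑ e, w e * |grad g (q z s) e| with hN
  have N_nonneg : ∀ z s, 0 ≤ N z s := fun z s =>
    Finset.sum_nonneg fun e _ => mul_nonneg (hw e) (abs_nonneg _)
  set En : X → ℕ → ℝ := fun z s => ∑ x, pim w x * (q z s x * Real.log (q z s x)) with hEn
  have N_step : ∀ z s, η * N z s ^ 2 ≤ 2 * (En z s - En z (s + 1)) := by
    intro z s
    have h1 := tv_sq_le g w hw (q z s) (q_nonneg z s) (q_mass z s)
    have h2 := ent_step g w η hw hπ hη hlazy (q z s) (q_nonneg z s)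
    have h3 := mul_le_mul_of_nonneg_left h1 hη.le
    simp only [hEn, q_succ]
    linarith
  have N_sum : ∀ z T, ∑ s ∈ Finset.range T, η * N z s ^ 2 ≤ 2 * Real.log (S / pim w z) := by
    intro z T
    have h1 : ∑ s ∈ Finset.range T, η * N z s ^ 2 ≤ 2 * (En z 0 - En z T) := by
      induction T with
      | zero => simp
      | succ T ih => rw [Finset.sum_range_succ]; have := N_step z T; linarith
    have h2 : - Real.log S ≤ En z T :=
      ent_ge (pim w) (q z T) (fun x => (hπ x).le) (q_nonneg z T) (q_mass z T) hS hS'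
    have h3 : En z 0 = - Real.log (pim w z) := by
      simp only [hEn, hq, pow_zero, Module.End.one_apply]
      have := eval_delta w hπ (fun x => Real.log (delta w z x)) z
      rw [Finset.sum_congr rfl fun x _ => by rw [mul_comm (delta w z x)], this]
      simp [delta]
    rw [Real.log_div hS.ne' (hπ' z)]
    linarith
  have N_tends : ∀ z, Tendsto (N z) atTop (𝓝 0) := by
    intro z
    have h1 : Summable fun s => η * N z s ^ 2 :=
      summable_of_sum_range_le (fun s => by positivity) (N_sum z)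
    have h2 := h1.tendsto_atTop_zero
    have h3 : Tendsto (fun s => √(η⁻¹ * (η * N z s ^ 2))) atTop (𝓝 (√(η⁻¹ * 0))) :=
      (h2.const_mul _).sqrt
    simp only [mul_zero, Real.sqrt_zero] at h3
    refine h3.congr fun s => ?_
    rw [← mul_assoc, inv_mul_cancel₀ hη.ne', one_mul, Real.sqrt_sq (N_nonneg z s)]
  -- the basic identity
  have hR : ∀ (s s' : ℕ) (e f : X × X),
      grad g ((P ^ (s + s')) (Φ f)) e - grad g ((P ^ (s + s' + 1)) (Φ f)) e =
        η * ∑ z, pim w z * (w f * grad g (q z s') f) * grad g (q z s) e := by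
    intro s s' e f
    have h1 : (P ^ (s + s')) (Φ f) - (P ^ (s + s' + 1)) (Φ f) =
        (P ^ s) ((P ^ s') (Φ f - P (Φ f))) := by
      rw [map_sub, map_sub, pow_succ, pow_add]; rfl
    rw [← grad_sub, h1, grad_pow_repr g w η hπ, Finset.mul_sum]
    refine Finset.sum_congr rfl fun z _ => ?_
    have h2 : (P ^ s') (Φ f - P (Φ f)) z = η * (w f * grad g (q z s') f) := by
      rw [← eval_delta w hπ ((P ^ s') (Φ f - P (Φ f))) z, mk_pow_selfadj g w η hπ', ← hΦ,
        ← inner_sub_mk g w η hπ']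
      rfl
    rw [h2]; ring
  have hRb : ∀ (s s' : ℕ), ∑ e, ∑ f, w e *
      |grad g ((P ^ (s + s')) (Φ f)) e - grad g ((P ^ (s + s' + 1)) (Φ f)) e| ≤
        ∑ z, pim w z * (η * (N z s * N z s')) := by
    intro s s'
    have h1 : ∀ e f : X × X, w e *
        |grad g ((P ^ (s + s')) (Φ f)) e - grad g ((P ^ (s + s' + 1)) (Φ f)) e| ≤
        ∑ z, pim w z * (η * ((w e * |grad g (q z s) e|) * (w f * |grad g (q z s') f|))) := by
      intro e f
      rw [hR, abs_mul, abs_of_pos hη]
      calc w e * (η * |∑ z, pim w z * (w f * grad g (q z s') f) * grad g (q z s) e|)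
          ≤ w e * (η * ∑ z, |pim w z * (w f * grad g (q z s') f) * grad g (q z s) e|) := by
            gcongr
            · exact hw e
            · exact Finset.abs_sum_le_sum_abs _ _
        _ = _ := by
            rw [Finset.mul_sum, Finset.mul_sum]
            refine Finset.sum_congr rfl fun z _ => ?_
            rw [abs_mul, abs_mul, abs_mul, abs_of_pos (hπ z), abs_of_nonneg (hw f)]; ring
    refine le_trans (Finset.sum_le_sum fun e _ => Finset.sum_le_sum fun f _ => h1 e f)
      (le_of_eq ?_)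
    refine Eq.trans (Finset.sum_congr rfl fun e _ => Finset.sum_comm) ?_
    rw [Finset.sum_comm]
    refine Finset.sum_congr rfl fun z _ => ?_
    simp only [hN]
    rw [Finset.sum_mul_sum, Finset.mul_sum, Finset.mul_sum]
    refine Finset.sum_congr rfl fun e _ => ?_
    rw [Finset.mul_sum, Finset.mul_sum]
  have hT : ∀ T : ℕ, ∑ e, ∑ f, w e * |grad g (Φ f) e - grad g ((P ^ (T + T)) (Φ f)) e| ≤
      ∑ z, pim w z * ∑ s ∈ Finset.range T, (η * (N z s * N z s) + η * (N z (s + 1) * N z s)) := by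
    intro T
    induction T with
    | zero => simp
    | succ T ih =>
      have h1 := hRb T T
      have h2 := hRb (T + 1) T
      have e1 : T + 1 + T = T + T + 1 := by ring
      have e2 : T + 1 + (T + 1) = T + T + 1 + 1 := by ring
      rw [e1] at h2
      rw [e2]
      refine le_trans (le_trans ?_ (add_le_add ih (add_le_add h1 h2))) (le_of_eq ?_)
      swap
      · simp only [← Finset.sum_add_distrib]
        refine Finset.sum_congr rfl fun z _ => ?_
        rw [Finset.sum_range_succ]; ring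
      simp only [← Finset.sum_add_distrib]
      refine Finset.sum_le_sum fun e _ => Finset.sum_le_sum fun f _ => ?_
      rw [← mul_add, ← mul_add]
      refine mul_le_mul_of_nonneg_left ?_ (hw e)
      have a := abs_sub_le (grad g (Φ f) e) (grad g ((P ^ (T + T)) (Φ f)) e)
        (grad g ((P ^ (T + T + 1 + 1)) (Φ f)) e)
      have b := abs_sub_le (grad g ((P ^ (T + T)) (Φ f)) e) (grad g ((P ^ (T + T + 1)) (Φ f)) e)
        (grad g ((P ^ (T + T + 1 + 1)) (Φ f)) e)
      linarith
  have hT2 : ∀ T : ℕ, ∑ e, ∑ f, w e * |grad g (Φ f) e - grad g ((P ^ (T + T)) (Φ f)) e| ≤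
      4 * ∑ z, pim w z * Real.log (S / pim w z) := by
    intro T
    refine (hT T).trans ?_
    rw [Finset.mul_sum]
    refine Finset.sum_le_sum fun z _ => ?_
    have h1 := N_sum z T
    have h2 := N_sum z (T + 1)
    rw [Finset.sum_range_succ'] at h2
    have h3 : 0 ≤ η * N z 0 ^ 2 := by positivity
    have h4 : ∑ s ∈ Finset.range T, (η * (N z s * N z s) + η * (N z (s + 1) * N z s)) ≤
        ∑ s ∈ Finset.range T, (3 / 2 * (η * N z s ^ 2) + 1 / 2 * (η * N z (s + 1) ^ 2)) := by
      refine Finset.sum_le_sum fun s _ => ?_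
      have := mul_nonneg hη.le (sq_nonneg (N z (s + 1) - N z s))
      nlinarith
    rw [Finset.sum_add_distrib (f := fun s => 3 / 2 * (η * N z s ^ 2)),
      ← Finset.mul_sum (a := (3 / 2 : ℝ)), ← Finset.mul_sum (a := (1 / 2 : ℝ))] at h4
    have h5 : ∑ s ∈ Finset.range T, (η * (N z s * N z s) + η * (N z (s + 1) * N z s)) ≤
        4 * Real.log (S / pim w z) := by linarith
    have := mul_le_mul_of_nonneg_left h5 (hπ z).le
    linarith
  have hrem : ∀ T : ℕ, ∑ e, ∑ f, w e * |grad g ((P ^ T) (Φ f)) e| ≤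
      ∑ z, (∑ f, pim w z * |Φ f z|) * N z T := by
    intro T
    have h1 : ∀ e f : X × X, w e * |grad g ((P ^ T) (Φ f)) e| ≤
        ∑ z, (pim w z * |Φ f z|) * (w e * |grad g (q z T) e|) := by
      intro e f
      rw [grad_pow_repr g w η hπ]
      calc w e * |∑ z, pim w z * Φ f z * grad g ((P ^ T) (delta w z)) e|
          ≤ w e * ∑ z, |pim w z * Φ f z * grad g ((P ^ T) (delta w z)) e| := by
            gcongr
            · exact hw e
            · exact Finset.abs_sum_le_sum_abs _ _
        _ = _ := by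
            rw [Finset.mul_sum]
            refine Finset.sum_congr rfl fun z _ => ?_
            rw [abs_mul, abs_mul, abs_of_pos (hπ z)]; ring
    refine le_trans (Finset.sum_le_sum fun e _ => Finset.sum_le_sum fun f _ => h1 e f)
      (le_of_eq ?_)
    simp only [hN, Finset.sum_mul_sum]
    rw [Finset.sum_comm]
    refine Eq.trans (Finset.sum_congr rfl fun e _ => Finset.sum_comm) ?_
    rw [Finset.sum_comm]
  have hlim : Tendsto (fun T : ℕ => 4 * ∑ z, pim w z * Real.log (S / pim w z) +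
      ∑ z, (∑ f, pim w z * |Φ f z|) * N z (T + T)) atTop
      (𝓝 (4 * ∑ z, pim w z * Real.log (S / pim w z) + ∑ z, (∑ f, pim w z * |Φ f z|) * 0)) := by
    refine tendsto_const_nhds.add (tendsto_finsetSum _ fun z _ => ?_)
    refine Tendsto.const_mul _ ((N_tends z).comp ?_)
    exact tendsto_atTop_mono (fun T => Nat.le_add_right T T) tendsto_id
  simp only [mul_zero, Finset.sum_const_zero, add_zero] at hlim
  refine ge_of_tendsto' hlim fun T => ?_
  refine le_trans ?_ (add_le_add (hT2 T) (hrem (T + T)))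
  simp only [← Finset.sum_add_distrib]
  refine Finset.sum_le_sum fun e _ => Finset.sum_le_sum fun f _ => ?_
  rw [← mul_add]
  refine mul_le_mul_of_nonneg_left ?_ (hw e)
  have := abs_sub_abs_le_abs_sub (grad g (Φ f) e) (grad g ((P ^ (T + T)) (Φ f)) e)
  linarith

end Crest.Agent.R232
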