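import Mathlib
import Crest.Agent.R232.TwoPoint

/-! The lower bound for isometric embeddings. -/

set_option autoImplicit false
open Finset MeasureTheory
open scoped ENNReal

namespace Crest.Agent.R232

lemma two_pt_lower_strict {p : ℝ} (hp : 1 < p) (y : ℝ) {A : ℝ} (hA : A ≠ 0) :
    |y| ^ p < (|y + A| ^ p + |y - A| ^ p) / 2 := by
  by_cases h : |y + A| = |y - A|
  · have hy : y = 0 := by
      have h2 : (y + A) ^ 2 = (y - A) ^ 2 := by rw [← sq_abs, h, sq_abs]
      have : y * A = 0 := by linarith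
      exact (mul_eq_zero.1 this).resolve_right hA
    subst hy
    have : 0 < |A| ^ p := Real.rpow_pos_of_pos (abs_pos.2 hA) _
    simp only [abs_zero, Real.zero_rpow (by linarith : p ≠ 0), zero_add, zero_sub, abs_neg]
    linarith
  · refine lt_of_le_of_lt (Real.rpow_le_rpow (abs_nonneg _) ?_ (by linarith))
      (mid_rpow_lt hp (abs_nonneg _) (abs_nonneg _) h)
    have := abs_add_le (y + A) (y - A)
    have h : y + A + (y - A) = 2 * y := by ring
    rw [h, abs_mul, abs_two] at this
    linarith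

lemma neg_of_norm {ι : Type*} [Fintype ι] {p N : ℝ} (hp : 1 < p) (U W : ι → ℝ)
    (h1 : ∑ a, |U a| ^ p = N) (h2 : ∑ a, |W a| ^ p = N) (h3 : ∑ a, |U a - W a| ^ p = 2 ^ p * N)
    (a : ι) : W a = -U a := by
  by_contra hc
  have key : ∑ a, |(U a - W a) / 2| ^ p < ∑ a, (|U a| ^ p + |W a| ^ p) / 2 := by
    have e : ∀ a, (|U a| ^ p + |W a| ^ p) / 2 = (|(U a - W a) / 2 + (U a + W a) / 2| ^ p +
        |(U a - W a) / 2 - (U a + W a) / 2| ^ p) / 2 := by
      intro a
      rw [show (U a - W a) / 2 + (U a + W a) / 2 = U a by ring,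
        show (U a - W a) / 2 - (U a + W a) / 2 = -W a by ring, abs_neg]
    refine Finset.sum_lt_sum (fun a _ => ?_) ⟨a, mem_univ _, ?_⟩
    · rw [e]; exact two_pt_lower hp.le _ _
    · rw [e]; refine two_pt_lower_strict hp _ fun h => hc ?_
      linarith
  simp only [abs_div, abs_two, Real.div_rpow (abs_nonneg _) (zero_le_two), ← Finset.sum_div,
    Finset.sum_add_distrib, h1, h2, h3] at key
  rw [mul_div_cancel_left₀ _ (by positivity)] at key
  linarith

lemma disjoint_of_norm {ι : Type*} [Fintype ι] {p N : ℝ} (hp : 0 < p) (hp2 : p ≠ 2) (U V : ι → ℝ)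
    (h1 : ∑ a, |U a| ^ p = N) (h2 : ∑ a, |V a| ^ p = N) (h3 : ∑ a, |U a + V a| ^ p = 2 * N)
    (h4 : ∑ a, |U a - V a| ^ p = 2 * N) (a : ι) (hU : U a ≠ 0) (hV : V a ≠ 0) : False := by
  have e1 : ∑ a, (|U a + V a| ^ p + |U a - V a| ^ p) / 2 = 2 * N := by
    rw [← Finset.sum_div, Finset.sum_add_distrib, h3, h4]; ring
  have e2 : ∑ a, (|U a| ^ p + |V a| ^ p) = 2 * N := by
    rw [Finset.sum_add_distrib, h1, h2]; ring
  rcases lt_or_gt_of_ne hp2 with h | h
  · have := Finset.sum_lt_sum (s := univ) (fun a _ => two_pt_small hp.le h.le (U a) (V a))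
      ⟨a, mem_univ _, two_pt_small_strict hp.le h hU hV⟩
    linarith
  · have := Finset.sum_lt_sum (s := univ) (fun a _ => two_pt_large h.le (U a) (V a))
      ⟨a, mem_univ _, two_pt_large_strict h hU hV⟩
    linarith

/-- row / column indicators -/
def ind {k : ℕ} (r : Bool) (i : Fin k) (z : Fin k × Fin k) : ℝ :=
  if (if r then z.1 else z.2) = i then 1 else 0

/-- the configuration -/
def conf {k : ℕ} : Option (Bool × Bool × Fin k) → Fin k × Fin k → ℝ
  | none => fun _ => 0
  | some (σ, r, i) => fun z => if σ then ind r i z else -ind r i z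

lemma sum_ind {k : ℕ} (r : Bool) (i : Fin k) : ∑ z, ind r i z = k := by
  cases r
  · rw [Fintype.sum_prod_type]; simp [ind]
  · rw [Fintype.sum_prod_type_right]; simp [ind]

lemma abs_conf_le {k : ℕ} (t : Option (Bool × Bool × Fin k)) (z : Fin k × Fin k) :
    conf t z ≤ 1 := by
  rcases t with _ | ⟨σ, r, i⟩
  · simp [conf]
  · simp only [conf, ind]; split_ifs <;> norm_num

lemma conf_injective {k : ℕ} (hk : 2 ≤ k) : Function.Injective (conf (k := k)) := by
  have : Nontrivial (Fin k) := Fin.nontrivial_iff_two_le.2 hk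
  rintro (_ | ⟨σ, r, i⟩) (_ | ⟨σ', r', i'⟩) h
  · rfl
  · have := congrFun h (i', i')
    cases σ' <;> simp [conf, ind] at this
  · have := congrFun h (i, i)
    cases σ <;> simp [conf, ind] at this
  · have h1 := congrFun h (i, i)
    obtain ⟨j, hj⟩ := exists_ne i
    have h2 := congrFun h (i, j)
    by_cases hi : i = i'
    · subst hi
      cases σ <;> cases σ' <;> cases r <;> cases r' <;> simp [conf, ind, hj] at h1 h2 ⊢ <;>
        norm_num at h1
    · cases σ <;> cases σ' <;> simp [conf, ind, hi] at h1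

lemma ind_cases {k : ℕ} (r : Bool) (i : Fin k) (z : Fin k × Fin k) :
    ind r i z = 0 ∨ ind r i z = 1 := by
  unfold ind; split_ifs <;> simp

lemma ind_disj {k : ℕ} (r : Bool) {i j : Fin k} (hij : i ≠ j) (z : Fin k × Fin k) :
    ind r i z = 0 ∨ ind r j z = 0 := by
  unfold ind
  by_cases h : (if r then z.1 else z.2) = i
  · right; rw [if_neg]; rw [h]; exact hij
  · left; rw [if_neg h]

lemma conf_true {k : ℕ} (r : Bool) (i : Fin k) (z : Fin k × Fin k) :
    conf (some (true, r, i)) z = ind r i z := rfl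

lemma conf_false {k : ℕ} (r : Bool) (i : Fin k) (z : Fin k × Fin k) :
    conf (some (false, r, i)) z = -ind r i z := rfl

theorem sq_le_of_conf {k d : ℕ} {p c : ℝ} (hp : 1 < p) (hp2 : p ≠ 2) (hc : 0 < c)
    (Y : Option (Bool × Bool × Fin k) → Fin d → ℝ)
    (hY : ∀ t t', ∑ a, |Y t a - Y t' a| ^ p = c * ∑ z, |conf t z - conf t' z| ^ p) :
    k ^ 2 ≤ d := by
  have hp0 : p ≠ 0 := by linarith
  set U : Bool → Bool → Fin k → Fin d → ℝ := fun σ r i a => Y (some (σ, r, i)) a - Y none a with hU
  have n1 : ∀ σ r i, ∑ a, |U σ r i a| ^ p = c * k := by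
    intro σ r i
    rw [hU]; beta_reduce
    rw [hY, ← sum_ind r i]
    congr 1
    refine Finset.sum_congr rfl fun z _ => ?_
    simp only [conf, ind]
    split_ifs <;> simp [Real.zero_rpow hp0]
  have n2 : ∀ σ r i σ' r' i', ∑ a, |U σ r i a - U σ' r' i' a| ^ p =
      c * ∑ z, |conf (some (σ, r, i)) z - conf (some (σ', r', i')) z| ^ p := by
    intro σ r i σ' r' i'
    rw [← hY]; simp [hU]
  have neg : ∀ r i a, U false r i a = -U true r i a := by
    intro r i
    refine neg_of_norm hp _ _ (n1 _ _ _) (n1 _ _ _) ?_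
    rw [n2, ← sum_ind r i, mul_left_comm, Finset.mul_sum _ _ ((2 : ℝ) ^ p)]
    congr 1
    refine Finset.sum_congr rfl fun z _ => ?_
    rw [conf_true, conf_false]
    rcases ind_cases r i z with h | h <;> simp [h, Real.zero_rpow hp0, one_add_one_eq_two]
  have n3 : ∀ σ r i j, i ≠ j → ∑ a, |U true r i a - U σ r j a| ^ p = 2 * (c * k) := by
    intro σ r i j hij
    rw [n2, mul_left_comm, two_mul]
    congr 1
    nth_rewrite 1 [← sum_ind r i]
    rw [← sum_ind r j, ← Finset.sum_add_distrib]
    refine Finset.sum_congr rfl fun z _ => ?_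
    cases σ <;> simp only [conf_true, conf_false] <;> rcases ind_disj r hij z with h | h
    · rcases ind_cases r j z with h' | h' <;> simp [h, h', Real.zero_rpow hp0]
    · rcases ind_cases r i z with h' | h' <;> simp [h, h', Real.zero_rpow hp0]
    · rcases ind_cases r j z with h' | h' <;> simp [h, h', Real.zero_rpow hp0]
    · rcases ind_cases r i z with h' | h' <;> simp [h, h', Real.zero_rpow hp0]
  have disj : ∀ r i j a, U true r i a ≠ 0 → U true r j a ≠ 0 → i = j := by
    intro r i j a h1 h2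
    by_contra hij
    refine disjoint_of_norm (by linarith) hp2 _ _ (n1 true r i) (n1 true r j) ?_
      (n3 true r i j hij) a h1 h2
    rw [← n3 false r i j hij]
    simp [neg]
  have common : ∀ e : Fin k × Fin k, ∃ a, U true true e.1 a ≠ 0 ∧ U true false e.2 a ≠ 0 := by
    rintro ⟨i, j⟩
    by_contra hcon
    push Not at hcon
    have h1 : ∑ a, |U true true i a - U true false j a| ^ p =
        ∑ a, |U true true i a - U false false j a| ^ p := by
      refine Finset.sum_congr rfl fun a _ => ?_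
      rw [neg]
      by_cases h : U true true i a = 0
      · simp [h]
      · simp [hcon a h]
    rw [n2, n2] at h1
    have h2 := mul_left_cancel₀ hc.ne' h1
    refine absurd h2 (ne_of_lt (Finset.sum_lt_sum (fun z _ => ?_) ⟨(i, j), mem_univ _, ?_⟩))
    · refine Real.rpow_le_rpow (abs_nonneg _) ?_ (by linarith)
      rw [conf_true, conf_true, conf_false]
      rcases ind_cases true i z with h | h <;> rcases ind_cases false j z with h' | h' <;>
        simp [h, h']
    · simp only [conf, ind]
      simp [Real.zero_rpow hp0]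
      positivity
  choose f hf using common
  have hinj : Function.Injective f := by
    intro e e' h
    refine Prod.ext (disj true _ _ (f e) (hf e).1 (h ▸ (hf e').1))
      (disj false _ _ (f e) (hf e).2 (h ▸ (hf e').2))
  have := Fintype.card_le_of_injective f hinj
  simpa [sq] using this

lemma norm_count {α : Type*} [Fintype α] [MeasurableSpace α] [MeasurableSingletonClass α]
    {p : ℝ≥0∞} (hp0 : p ≠ 0) (hptop : p ≠ ⊤) (f : α → ℝ) :
    (eLpNorm f p Measure.count).toReal = (∑ z, |f z| ^ p.toReal) ^ (1 / p.toReal) := by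
  have hq : 0 < p.toReal := ENNReal.toReal_pos hp0 hptop
  rw [eLpNorm_eq_lintegral_rpow_enorm_toReal hp0 hptop, ← ENNReal.toReal_rpow, lintegral_count,
    tsum_fintype, ENNReal.toReal_sum fun a _ => ENNReal.rpow_ne_top_of_nonneg hq.le enorm_ne_top]
  congr 1
  refine Finset.sum_congr rfl fun v _ => ?_
  rw [← ENNReal.toReal_rpow, toReal_enorm, Real.norm_eq_abs]

end Crest.Agent.R232
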